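import Vale.Agent.P173.Bdl.B1

/-! # P173: cohomological dimension over an arbitrary commutative ring `k` -/

open CategoryTheory CategoryTheory.Limits Vale.P173 Function

namespace Vale.Agent.P173.OverK

open Vale.Agent.P173

variable {I3 : Fin 3 → Type} (k : Type) [CommRing k]

/-- difference of two basis elements -/
noncomputable def dlt {Y : Type} (a b : Y) : Y →₀ k := Finsupp.single a 1 - Finsupp.single b 1

theorem lc_dlt_gen {k : Type} [CommRing k] {Y A : Type} [AddCommGroup A] [Module k A] (F : Y → A)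
    (a b : Y) :
    Finsupp.linearCombination k F (Finsupp.single a 1 - Finsupp.single b 1) = F a - F b := by
  rw [map_sub, Finsupp.linearCombination_single, Finsupp.linearCombination_single, one_smul,
    one_smul]

theorem lc_single_gen {k : Type} [CommRing k] {Y A : Type} [AddCommGroup A] [Module k A]
    (F : Y → A) (a : Y) :
    Finsupp.linearCombination k F (Finsupp.single a 1) = F a := by
  rw [Finsupp.linearCombination_single, one_smul]

theorem lc_dlt {Y A : Type} [AddCommGroup A] [Module k A] (F : Y → A) (a b : Y) :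
    Finsupp.linearCombination k F (dlt k a b) = F a - F b :=
  lc_dlt_gen (k := k) F a b

theorem dlt_smul {Y : Type} {G : Type} [Group G] [MulAction G Y] (g : G) (a b : Y) :
    permRho k G Y g (dlt k a b) = dlt k (g • a) (g • b) := by
  simp only [dlt, map_sub, permRho_single]


/-- boundary of 3-cells -/
noncomputable def d3f (q : X3 I3) : X2 I3 →₀ k :=
  dlt k (X2.a (top (by decide) q)) (X2.a (bot 0 (by decide) (by decide) q)) -
  dlt k (X2.b (top (by decide) q)) (X2.b (bot 1 (by decide) (by decide) q)) +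
  dlt k (X2.c (top (by decide) q)) (X2.c (bot 2 (by decide) (by decide) q))

/-- boundary of 2-cells -/
noncomputable def d2f : X2 I3 → (X1 I3 →₀ k)
  | .a q =>
    dlt k (X1.a (top (by decide) q)) (X1.a (bot 1 (by decide) (by decide) q)) -
    dlt k (X1.b (top (by decide) q)) (X1.b (bot 2 (by decide) (by decide) q))
  | .b q =>
    dlt k (X1.a (top (by decide) q)) (X1.a (bot 0 (by decide) (by decide) q)) -
    dlt k (X1.c (top (by decide) q)) (X1.c (bot 2 (by decide) (by decide) q))
  | .c q =>
    dlt k (X1.b (top (by decide) q)) (X1.b (bot 0 (by decide) (by decide) q)) -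
    dlt k (X1.c (top (by decide) q)) (X1.c (bot 1 (by decide) (by decide) q))

/-- boundary of 1-cells -/
noncomputable def d1f : X1 I3 → (X0 I3 →₀ k)
  | .a q => dlt k (top (by decide) q) (bot 2 (by decide) (by decide) q)
  | .b q => dlt k (top (by decide) q) (bot 1 (by decide) (by decide) q)
  | .c q => dlt k (top (by decide) q) (bot 0 (by decide) (by decide) q)

/-- the augmentation -/
def d0f : X0 I3 → k := fun _ => 1


theorem d3f_smul (g : GG I3) (q : X3 I3) : d3f k (g • q) = permRho k (GG I3) (X2 I3) g (d3f k q) := by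
  simp only [d3f, map_add, map_sub, dlt_smul, top_smul, bot_smul, smul_X2a, smul_X2b, smul_X2c]

theorem d2f_smul (g : GG I3) (q : X2 I3) : d2f k (g • q) = permRho k (GG I3) (X1 I3) g (d2f k q) := by
  rcases q with q | q | q <;>
  simp only [d2f, map_sub, dlt_smul, top_smul, bot_smul, smul_X2a, smul_X2b, smul_X2c, smul_X1a,
    smul_X1b, smul_X1c]

theorem d1f_smul (g : GG I3) (q : X1 I3) : d1f k (g • q) = permRho k (GG I3) (X0 I3) g (d1f k q) := by
  rcases q with q | q | q <;>
  simp only [d1f, dlt_smul, top_smul, bot_smul, smul_X1a, smul_X1b, smul_X1c]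

/-! ### exactness -/

theorem exact_of_coch {X Y Z : Type} (f : X → (Y →₀ k)) (g : Y → (Z →₀ k))
    (H : ∀ (A : Type) [AddCommGroup A] [Module k A] (F : Y → A),
      (∀ x, Finsupp.linearCombination k F (f x) = 0) →
      ∃ K : Z → A, ∀ y, F y = Finsupp.linearCombination k K (g y)) (z : Y →₀ k)
    (hz : Finsupp.linearCombination k g z = 0) :
    ∃ y : X →₀ k, Finsupp.linearCombination k f y = z := by
  let R := LinearMap.range (Finsupp.linearCombination k f)
  have hFq : ∀ y : Y →₀ k, Finsupp.linearCombination k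
      (fun y : Y => (R.mkQ (Finsupp.single y (1 : k)))) y = R.mkQ y := by
    intro y
    induction y using Finsupp.induction_linear with
    | zero => simp
    | add f h hf hh => rw [map_add, map_add, hf, hh]
    | single x r =>
      rw [Finsupp.linearCombination_single, ← map_smul]
      simp
  obtain ⟨K, hK⟩ := H ((Y →₀ k) ⧸ R) (fun y => R.mkQ (Finsupp.single y (1 : k))) (by
    intro x
    rw [hFq]
    rw [Submodule.mkQ_apply, Submodule.Quotient.mk_eq_zero]
    exact ⟨Finsupp.single x 1, by simp⟩)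
  have h1 : R.mkQ z = Finsupp.linearCombination k K (Finsupp.linearCombination k g z) := by
    rw [← hFq]
    have h2 : Finsupp.linearCombination k (fun y : Y => (R.mkQ (Finsupp.single y (1 : k)))) =
        (Finsupp.linearCombination k K).comp (Finsupp.linearCombination k g) := by
      apply Finsupp.lhom_ext
      intro y r
      rw [LinearMap.comp_apply, Finsupp.linearCombination_single, Finsupp.linearCombination_single,
        hK, map_smul]
    rw [h2, LinearMap.comp_apply]
  rw [hz, map_zero, Submodule.mkQ_apply, Submodule.Quotient.mk_eq_zero] at h1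
  exact h1

theorem exact_X2 (z : X2 I3 →₀ k) (hz : Finsupp.linearCombination k (d2f k) z = 0) :
    ∃ y : X3 I3 →₀ k, Finsupp.linearCombination k (d3f k) y = z := by
  refine exact_of_coch k (d3f k) (d2f k) ?_ z hz
  intro A _ _ F hF
  obtain ⟨b2, b1, b0, h2, h1, h0, e12, e02, e01⟩ := exact_two (isRACG_WW I3)
    (fun v w h => h.symm) col (fun v w h => h.col_ne)
    (toFn (fun q => F (.a q))) (toFn (fun q => F (.b q))) (toFn (fun q => F (.c q))) (toFn_inv _) (toFn_inv _) (toFn_inv _) (by
      intro x hx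
      funext w
      have h := hF (cmk x hx w)
      simp only [d3f, map_add, map_sub, lc_dlt, top_cmk, bot_cmk] at h
      simp only [dif, Pi.add_apply, Pi.sub_apply, Pi.zero_apply]
      rw [toFn_of _ x (hx.mono (by decide)), toFn_of _ x (hx.mono (by decide)),
        toFn_of _ x (hx.mono (by decide)), toFn_of _ _ (hx.erase 0 (by decide)),
        toFn_of _ _ (hx.erase 1 (by decide)), toFn_of _ _ (hx.erase 2 (by decide))]
      exact h)
  refine ⟨fun q => match q with
    | .a q => ofFn b2 h2 q
    | .b q => ofFn b1 h1 q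
    | .c q => ofFn b0 h0 q, ?_⟩
  rintro (q | q | q)
  · obtain ⟨x, hx, w, rfl⟩ := cell_exists q
    have h := congrFun (e12 x hx) w
    rw [toFn_of _ x hx] at h
    simp only [d2f, map_sub, lc_dlt, top_cmk, bot_cmk, ofFn_cmk]
    exact h
  · obtain ⟨x, hx, w, rfl⟩ := cell_exists q
    have h := congrFun (e02 x hx) w
    rw [toFn_of _ x hx] at h
    simp only [d2f, map_sub, lc_dlt, top_cmk, bot_cmk, ofFn_cmk]
    exact h
  · obtain ⟨x, hx, w, rfl⟩ := cell_exists q
    have h := congrFun (e01 x hx) w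
    rw [toFn_of _ x hx] at h
    simp only [d2f, map_sub, lc_dlt, top_cmk, bot_cmk, ofFn_cmk]
    exact h

theorem exact_X1 (z : X1 I3 →₀ k) (hz : Finsupp.linearCombination k (d1f k) z = 0) :
    ∃ y : X2 I3 →₀ k, Finsupp.linearCombination k (d2f k) y = z := by
  refine exact_of_coch k (d2f k) (d1f k) ?_ z hz
  intro A _ _ F hF
  obtain ⟨u, hu, e0, e1, e2⟩ := exact_one (isRACG_WW I3)
    (fun v w h => h.symm) col (fun v w h => h.col_ne)
    (toFn (fun q => F (.a q))) (toFn (fun q => F (.b q))) (toFn (fun q => F (.c q))) (toFn_inv _) (toFn_inv _) (toFn_inv _)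
    (by
      intro x hx
      funext w
      have h := hF (.a (cmk x hx w))
      simp only [d2f, map_sub, lc_dlt, top_cmk, bot_cmk] at h
      simp only [dif]
      rw [toFn_of _ x (hx.mono (by decide)), toFn_of _ x (hx.mono (by decide)),
        toFn_of _ _ (hx.erase 1 (by decide)), toFn_of _ _ (hx.erase 2 (by decide))]
      exact sub_eq_zero.1 h)
    (by
      intro x hx
      funext w
      have h := hF (.b (cmk x hx w))
      simp only [d2f, top_cmk, bot_cmk, map_sub, lc_dlt] at h
      simp only [dif]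
      rw [toFn_of _ x (hx.mono (by decide)), toFn_of _ x (hx.mono (by decide)),
        toFn_of _ _ (hx.erase 0 (by decide)), toFn_of _ _ (hx.erase 2 (by decide))]
      exact sub_eq_zero.1 h)
    (by
      intro x hx
      funext w
      have h := hF (.c (cmk x hx w))
      simp only [d2f, map_sub, lc_dlt, top_cmk, bot_cmk] at h
      simp only [dif]
      rw [toFn_of _ x (hx.mono (by decide)), toFn_of _ x (hx.mono (by decide)),
        toFn_of _ _ (hx.erase 0 (by decide)), toFn_of _ _ (hx.erase 1 (by decide))]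
      exact sub_eq_zero.1 h)
  refine ⟨ofFn u hu, ?_⟩
  rintro (q | q | q)
  · obtain ⟨x, hx, w, rfl⟩ := cell_exists q
    have h := congrFun (e2 x hx) w
    rw [toFn_of _ x hx] at h
    simp only [d1f, lc_dlt, top_cmk, bot_cmk, ofFn_cmk]
    exact h
  · obtain ⟨x, hx, w, rfl⟩ := cell_exists q
    have h := congrFun (e1 x hx) w
    rw [toFn_of _ x hx] at h
    simp only [d1f, lc_dlt, top_cmk, bot_cmk, ofFn_cmk]
    exact h
  · obtain ⟨x, hx, w, rfl⟩ := cell_exists q
    have h := congrFun (e0 x hx) w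
    rw [toFn_of _ x hx] at h
    simp only [d1f, lc_dlt, top_cmk, bot_cmk, ofFn_cmk]
    exact h

theorem exact_X0 (z : X0 I3 →₀ k) (hz : Finsupp.linearCombination k (d0f k) z = 0) :
    ∃ y : X1 I3 →₀ k, Finsupp.linearCombination k (d1f k) y = z := by
  refine exact_of_coch k (d1f k) (fun _ => (Finsupp.single () 1 : Unit →₀ k)) ?_ z ?_
  · intro A _ _ F hF
    obtain ⟨a, ha⟩ := exact_zero (isRACG_WW I3) col (toFn F) (toFn_inv F) (by
      intro c x hx
      funext w
      simp only [dif, Pi.zero_apply]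
      have hc : c = 0 ∨ c = 1 ∨ c = 2 := by
        clear hx; revert c; decide
      rcases hc with rfl | rfl | rfl
      · have h := hF (.c (cmk x hx w))
        simp only [d1f, lc_dlt, top_cmk, bot_cmk] at h
        rw [toFn_of _ x (hx.mono (by decide)), toFn_of _ _ (hx.erase 0 (by decide))]
        exact h
      · have h := hF (.b (cmk x hx w))
        simp only [d1f, lc_dlt, top_cmk, bot_cmk] at h
        rw [toFn_of _ x (hx.mono (by decide)), toFn_of _ _ (hx.erase 1 (by decide))]
        exact h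
      · have h := hF (.a (cmk x hx w))
        simp only [d1f, lc_dlt, top_cmk, bot_cmk] at h
        rw [toFn_of _ x (hx.mono (by decide)), toFn_of _ _ (hx.erase 2 (by decide))]
        exact h)
    refine ⟨fun _ => a, fun q => ?_⟩
    obtain ⟨x, hx, w, rfl⟩ := cell_exists q
    have h := ha x hx w
    rw [toFn_of _ x hx] at h
    rw [h]; exact (lc_single_gen (k := k) (fun _ : Unit => a) ()).symm
  · have h1 : Finsupp.linearCombination k
        (fun _ : X0 I3 => (Finsupp.single () 1 : Unit →₀ k)) z =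
        Finsupp.single () (Finsupp.linearCombination k (d0f k) z) := by
      clear hz
      induction z using Finsupp.induction_linear with
      | zero => simp
      | add f h hf hh => rw [map_add, map_add, hf, hh, Finsupp.single_add]
      | single x r =>
        rw [Finsupp.linearCombination_single, Finsupp.linearCombination_single]
        simp [d0f]
    rw [h1, hz, Finsupp.single_zero]

/-! ### complex -/

theorem d2f_d3f (q : X3 I3) : Finsupp.linearCombination k (d2f k) (d3f k q) = 0 := by
  obtain ⟨x, hx, w, rfl⟩ := cell_exists q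
  have v1 : Valid col Adj {2} (update (update x 1 none) 0 none) :=
    (hx.erase (E' := {0, 2}) 1 (by decide)).erase 0 (by decide)
  have v2 : Valid col Adj {1} (update (update x 2 none) 0 none) :=
    (hx.erase (E' := {0, 1}) 2 (by decide)).erase 0 (by decide)
  have v3 : Valid col Adj {0} (update (update x 2 none) 1 none) :=
    (hx.erase (E' := {0, 1}) 2 (by decide)).erase 1 (by decide)
  simp only [d3f, map_add, map_sub, lc_dlt, d2f, top_cmk, bot_cmk]
  have e1 : update (update x 0 none) 1 none = update (update x 1 none) 0 none :=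
    update_comm (by decide) _ _ _
  have e2 : update (update x 0 none) 2 none = update (update x 2 none) 0 none :=
    update_comm (by decide) _ _ _
  have e3 : update (update x 1 none) 2 none = update (update x 2 none) 1 none :=
    update_comm (by decide) _ _ _
  rw [cmk_congr e1 _ v1, cmk_congr e2 _ v2, cmk_congr e3 _ v3]
  simp only [dlt]
  abel

theorem d1f_d2f (q : X2 I3) : Finsupp.linearCombination k (d1f k) (d2f k q) = 0 := by
  rcases q with q | q | q
  · obtain ⟨x, hx, w, rfl⟩ := cell_exists q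
    have v3 : Valid col Adj ∅ (update (update x 2 none) 1 none) :=
      (hx.erase (E' := {1}) 2 (by decide)).erase 1 (by decide)
    have e3 : update (update x 1 none) 2 none = update (update x 2 none) 1 none :=
      update_comm (by decide) _ _ _
    simp only [map_sub, lc_dlt, d2f, d1f, top_cmk, bot_cmk]
    rw [cmk_congr e3 _ v3]
    simp only [dlt]
    abel
  · obtain ⟨x, hx, w, rfl⟩ := cell_exists q
    have v3 : Valid col Adj ∅ (update (update x 2 none) 0 none) :=
      (hx.erase (E' := {0}) 2 (by decide)).erase 0 (by decide)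
    have e3 : update (update x 0 none) 2 none = update (update x 2 none) 0 none :=
      update_comm (by decide) _ _ _
    simp only [d2f, top_cmk, bot_cmk, map_sub, lc_dlt, d1f]
    rw [cmk_congr e3 _ v3]
    simp only [dlt]
    abel
  · obtain ⟨x, hx, w, rfl⟩ := cell_exists q
    have v3 : Valid col Adj ∅ (update (update x 1 none) 0 none) :=
      (hx.erase (E' := {0}) 1 (by decide)).erase 0 (by decide)
    have e3 : update (update x 0 none) 1 none = update (update x 1 none) 0 none :=
      update_comm (by decide) _ _ _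
    simp only [d2f, top_cmk, bot_cmk, map_sub, lc_dlt, d1f]
    rw [cmk_congr e3 _ v3]
    simp only [dlt]
    abel

theorem d0f_d1f (q : X1 I3) : Finsupp.linearCombination k (d0f k) (d1f k q) = 0 := by
  rcases q with q | q | q <;> simp [d1f, lc_dlt, d0f]


open Classical in
/-- the 3-cells over `w` -/
noncomputable def phiF (w : WW I3) (τ : TT) : X3 I3 →₀ k :=
  if h : Valid col Adj {0, 1, 2} (st3 τ) then Finsupp.single (cmk (st3 τ) h w) 1 else 0

/-- linear extension -/
noncomputable def phi (w : WW I3) : (TT →₀ k) →ₗ[k] (X3 I3 →₀ k) :=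
  Finsupp.linearCombination k (phiF k w)

theorem phi_smul (g : GG I3) (w : WW I3) (a : TT →₀ k) :
    phi k ((g : WW I3) * w) a = permRho k (GG I3) (X3 I3) g (phi k w a) := by
  unfold phi
  induction a using Finsupp.induction_linear with
  | zero => simp only [map_zero]
  | add f h hf hh => rw [map_add, map_add, map_add, hf, hh]
  | single τ r =>
    rw [Finsupp.linearCombination_single, Finsupp.linearCombination_single, map_smul]
    congr 1
    unfold phiF
    split_ifs with h
    · rw [permRho_single, smul_cmk']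
    · rw [map_zero]


variable (I3) in
/-- An equivariant retraction of the 2-chains onto the 3-chains. -/
theorem exists_retraction : ∃ rf : X2 I3 → (X3 I3 →₀ k),
    (∀ (g : GG I3) (q : X2 I3), rf (g • q) = permRho k (GG I3) (X3 I3) g (rf q)) ∧
    ∀ q : X3 I3, Finsupp.linearCombination k rf (d3f k q) = Finsupp.single q 1 := by
  classical
  obtain ⟨b01, b12, b02, hb⟩ := L2 (A := TT →₀ k)
    (fun i p g t => Finsupp.single (i, p, g, t) (1 : k))
  -- the cochains defining the retraction
  let B12 : Option Vx → Option Vx → (TT →₀ k) := fun x y => match x, y with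
    | some (.v1 p g), some (.v2 t) => b12 p g t
    | _, _ => 0
  let B02 : Option Vx → Option Vx → (TT →₀ k) := fun x y => match x, y with
    | some (.v0 i), some (.v2 t) => b02 i t
    | _, _ => 0
  let B01 : Option Vx → Option Vx → (TT →₀ k) := fun x y => match x, y with
    | some (.v0 i), some (.v1 p g) => b01 i p g
    | _, _ => 0
  let r12 : State Vx → WW I3 → (X3 I3 →₀ k) := fun x w =>
    if x 0 = none then - phi k w (B12 (x 1) (x 2)) else 0
  let r02 : State Vx → WW I3 → (X3 I3 →₀ k) := fun x w =>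
    if x 1 = none then - phi k w (B02 (x 0) (x 2)) else 0
  let r01 : State Vx → WW I3 → (X3 I3 →₀ k) := fun x w =>
    if x 2 = none then - phi k w (B01 (x 0) (x 1)) else 0
  have i12 : InvCoch (W := WW I3) Racg.s Sigma.fst col Adj {1, 2} r12 := by
    rintro x hx g ⟨c, hc, hv⟩ w
    have hc0 : c = 0 := by clear * - hc; revert c; decide
    subst hc0
    have hn : x 0 ≠ none := by rw [hv]; simp
    simp only [r12, if_neg hn]
  have i02 : InvCoch (W := WW I3) Racg.s Sigma.fst col Adj {0, 2} r02 := by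
    rintro x hx g ⟨c, hc, hv⟩ w
    have hc0 : c = 1 := by clear * - hc; revert c; decide
    subst hc0
    have hn : x 1 ≠ none := by rw [hv]; simp
    simp only [r02, if_neg hn]
  have i01 : InvCoch (W := WW I3) Racg.s Sigma.fst col Adj {0, 1} r01 := by
    rintro x hx g ⟨c, hc, hv⟩ w
    have hc0 : c = 2 := by clear * - hc; revert c; decide
    subst hc0
    have hn : x 2 ≠ none := by rw [hv]; simp
    simp only [r01, if_neg hn]
  let rf : X2 I3 → (X3 I3 →₀ k) := fun q => match q with
    | .a q => ofFn r12 i12 q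
    | .b q => ofFn r02 i02 q
    | .c q => ofFn r01 i01 q
  have hrf : ∀ (g : GG I3) (q : X2 I3), rf (g • q) = permRho k (GG I3) (X3 I3) g (rf q) := by
    intro g q
    rcases q with q | q | q
    · obtain ⟨x, hx, w, rfl⟩ := cell_exists q
      rw [smul_X2a, smul_cmk']
      simp only [rf, ofFn_cmk, r12]
      split_ifs with h
      · rw [phi_smul, map_neg]
      · rw [map_zero]
    · obtain ⟨x, hx, w, rfl⟩ := cell_exists q
      rw [smul_X2b, smul_cmk']
      simp only [rf, ofFn_cmk, r02]
      split_ifs with h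
      · rw [phi_smul, map_neg]
      · rw [map_zero]
    · obtain ⟨x, hx, w, rfl⟩ := cell_exists q
      rw [smul_X2c, smul_cmk']
      simp only [rf, ofFn_cmk, r01]
      split_ifs with h
      · rw [phi_smul, map_neg]
      · rw [map_zero]
  have hret : ∀ q : X3 I3, Finsupp.linearCombination k rf (d3f k q) = Finsupp.single q 1 := by
    intro q
    obtain ⟨x, hx, w, rfl⟩ := cell_exists q
    obtain ⟨⟨i, p, g, t⟩, rfl, hip, hpt⟩ := exists_state hx
    simp only [d3f, map_add, map_sub, lc_dlt, top_cmk, bot_cmk, rf, ofFn_cmk, r12, r02, r01]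
    have hbb := congrArg (phi k w) (hb i p g t hip hpt)
    rw [map_sub, map_add] at hbb
    have hphi : phi k w (Finsupp.single (i, p, g, t) (1 : k)) =
        Finsupp.single (cmk (st3 (i, p, g, t)) hx w) 1 := by
      unfold phi
      rw [Finsupp.linearCombination_single, one_smul]
      unfold phiF
      rw [dif_pos hx]
    rw [hphi] at hbb
    rw [← hbb]
    simp only [st3, reduceCtorEq, ↓reduceIte, update, Fin.isValue, ↓reduceDIte, one_ne_zero, Fin.reduceEq, sub_neg_eq_add, zero_add, zero_ne_one, B12, B02, B01]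
    abel
  exact ⟨rf, hrf, hret⟩

/-- The projective dimension of the trivial module is at most two. -/
theorem hasProjectiveDimensionLE_two (I3 : Fin 3 → Type) :
    HasProjectiveDimensionLE (Rep.trivial k (GG I3) k) 2 := by
  classical
  obtain ⟨rf, hrf, hret⟩ := exists_retraction I3 k
  -- the representations
  have free3 : ∀ (g : GG I3) (q : X3 I3), g • q = q → g = 1 := cell_free
  have free0 : ∀ (g : GG I3) (q : X0 I3), g • q = q → g = 1 := cell_free
  have free2 : ∀ (g : GG I3) (q : X2 I3), g • q = q → g = 1 := by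
    intro g q h
    rcases q with q | q | q
    · rw [smul_X2a] at h; exact cell_free g q (X2.a.inj h)
    · rw [smul_X2b] at h; exact cell_free g q (X2.b.inj h)
    · rw [smul_X2c] at h; exact cell_free g q (X2.c.inj h)
  have free1 : ∀ (g : GG I3) (q : X1 I3), g • q = q → g = 1 := by
    intro g q h
    rcases q with q | q | q
    · rw [smul_X1a] at h; exact cell_free g q (X1.a.inj h)
    · rw [smul_X1b] at h; exact cell_free g q (X1.b.inj h)
    · rw [smul_X1c] at h; exact cell_free g q (X1.c.inj h)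
  have P2 : Projective (permRep k (GG I3) (X2 I3)) := permRep_projective free2
  have P1 : Projective (permRep k (GG I3) (X1 I3)) := permRep_projective free1
  have P0 : Projective (permRep k (GG I3) (X0 I3)) := permRep_projective free0
  let D3 : permRep k (GG I3) (X3 I3) ⟶ permRep k (GG I3) (X2 I3) :=
    permLift (permRep k (GG I3) (X2 I3)) (d3f k) (d3f_smul k)
  let D2 : permRep k (GG I3) (X2 I3) ⟶ permRep k (GG I3) (X1 I3) :=
    permLift (permRep k (GG I3) (X1 I3)) (d2f k) (d2f_smul k)
  let D1 : permRep k (GG I3) (X1 I3) ⟶ permRep k (GG I3) (X0 I3) :=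
    permLift (permRep k (GG I3) (X0 I3)) (d1f k) (d1f_smul k)
  let D0 : permRep k (GG I3) (X0 I3) ⟶ Rep.trivial k (GG I3) k :=
    permLift (Rep.trivial k (GG I3) k) (d0f k) (fun _ _ => rfl)
  let Rr : permRep k (GG I3) (X2 I3) ⟶ permRep k (GG I3) (X3 I3) :=
    permLift (permRep k (GG I3) (X3 I3)) rf hrf
  have h32 : D3 ≫ D2 = 0 := by
    apply perm_hom_ext
    intro q
    rw [Rep.hom_comp, Representation.IntertwiningMap.comp_apply]
    change D2.hom (D3.hom (Finsupp.single q (1 : k))) = 0
    rw [permLift_single]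
    exact d2f_d3f k q
  have h21 : D2 ≫ D1 = 0 := by
    apply perm_hom_ext
    intro q
    rw [Rep.hom_comp, Representation.IntertwiningMap.comp_apply]
    change D1.hom (D2.hom (Finsupp.single q (1 : k))) = 0
    rw [permLift_single]
    exact d1f_d2f k q
  have h10 : D1 ≫ D0 = 0 := by
    apply perm_hom_ext
    intro q
    rw [Rep.hom_comp, Representation.IntertwiningMap.comp_apply]
    change D0.hom (D1.hom (Finsupp.single q (1 : k))) = 0
    rw [permLift_single]
    exact d0f_d1f k q
  have hr : D3 ≫ Rr = 𝟙 _ := by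
    apply perm_hom_ext
    intro q
    rw [Rep.hom_comp, Representation.IntertwiningMap.comp_apply]
    change Rr.hom (D3.hom (Finsupp.single q (1 : k))) = Finsupp.single q 1
    rw [permLift_single]
    exact hret q
  have hepi : Epi D0 := by
    rw [Rep.epi_iff_surjective]
    intro n
    have hx : Valid col Adj ∅ (fun _ => none : State Vx) := ⟨by simp, by simp, by simp⟩
    refine ⟨Finsupp.single (cmk (fun _ => none) hx 1) n, ?_⟩
    change Finsupp.linearCombination k (d0f k) _ = n
    rw [Finsupp.linearCombination_single]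
    simp [d0f]
  exact hasProjectiveDimensionLE_two_of_split D3 D2 D1 D0 h32 h21 h10
    (rep_exact_of _ _ h32 (fun z hz => exact_X2 k z hz))
    (rep_exact_of _ _ h21 (fun z hz => exact_X1 k z hz))
    (rep_exact_of _ _ h10 (fun z hz => exact_X0 k z hz)) Rr hr

/-- The projective dimension of the trivial module of a subgroup is at most two. -/
theorem hasProjectiveDimensionLE_two_sub (D : Subgroup (GG I3)) :
    HasProjectiveDimensionLE (Rep.trivial k D k) 2 := by
  classical
  obtain ⟨rf, hrf, hret⟩ := exists_retraction I3 k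
  -- the representations
  have free3 : ∀ (g : D) (q : X3 I3), g • q = q → g = 1 := fun g q h =>
    Subtype.ext (cell_free (g : GG I3) q h)
  have free0 : ∀ (g : D) (q : X0 I3), g • q = q → g = 1 := fun g q h =>
    Subtype.ext (cell_free (g : GG I3) q h)
  have free2 : ∀ (g : D) (q : X2 I3), g • q = q → g = 1 := by
    intro g q h
    have h' : (g : GG I3) • q = q := h
    apply Subtype.ext
    rcases q with q | q | q
    · rw [smul_X2a] at h'; exact cell_free _ q (X2.a.inj h')
    · rw [smul_X2b] at h'; exact cell_free _ q (X2.b.inj h')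
    · rw [smul_X2c] at h'; exact cell_free _ q (X2.c.inj h')
  have free1 : ∀ (g : D) (q : X1 I3), g • q = q → g = 1 := by
    intro g q h
    have h' : (g : GG I3) • q = q := h
    apply Subtype.ext
    rcases q with q | q | q
    · rw [smul_X1a] at h'; exact cell_free _ q (X1.a.inj h')
    · rw [smul_X1b] at h'; exact cell_free _ q (X1.b.inj h')
    · rw [smul_X1c] at h'; exact cell_free _ q (X1.c.inj h')
  have P2 : Projective (permRep k D (X2 I3)) := permRep_projective free2
  have P1 : Projective (permRep k D (X1 I3)) := permRep_projective free1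
  have P0 : Projective (permRep k D (X0 I3)) := permRep_projective free0
  let D3 : permRep k D (X3 I3) ⟶ permRep k D (X2 I3) :=
    permLift (permRep k D (X2 I3)) (d3f k) (fun g q => d3f_smul k (g : GG I3) q)
  let D2 : permRep k D (X2 I3) ⟶ permRep k D (X1 I3) :=
    permLift (permRep k D (X1 I3)) (d2f k) (fun g q => d2f_smul k (g : GG I3) q)
  let D1 : permRep k D (X1 I3) ⟶ permRep k D (X0 I3) :=
    permLift (permRep k D (X0 I3)) (d1f k) (fun g q => d1f_smul k (g : GG I3) q)
  let D0 : permRep k D (X0 I3) ⟶ Rep.trivial k D k :=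
    permLift (Rep.trivial k D k) (d0f k) (fun _ _ => rfl)
  let Rr : permRep k D (X2 I3) ⟶ permRep k D (X3 I3) :=
    permLift (permRep k D (X3 I3)) rf (fun g q => hrf (g : GG I3) q)
  have h32 : D3 ≫ D2 = 0 := by
    apply perm_hom_ext
    intro q
    rw [Rep.hom_comp, Representation.IntertwiningMap.comp_apply]
    have e : D3.hom (Finsupp.single q (1 : k)) = d3f k q := permLift_single _ _ _ _
    change D2.hom (D3.hom (Finsupp.single q (1 : k))) = 0
    rw [e]
    exact d2f_d3f k q
  have h21 : D2 ≫ D1 = 0 := by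
    apply perm_hom_ext
    intro q
    rw [Rep.hom_comp, Representation.IntertwiningMap.comp_apply]
    have e : D2.hom (Finsupp.single q (1 : k)) = d2f k q := permLift_single _ _ _ _
    change D1.hom (D2.hom (Finsupp.single q (1 : k))) = 0
    rw [e]
    exact d1f_d2f k q
  have h10 : D1 ≫ D0 = 0 := by
    apply perm_hom_ext
    intro q
    rw [Rep.hom_comp, Representation.IntertwiningMap.comp_apply]
    have e : D1.hom (Finsupp.single q (1 : k)) = d1f k q := permLift_single _ _ _ _
    change D0.hom (D1.hom (Finsupp.single q (1 : k))) = 0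
    rw [e]
    exact d0f_d1f k q
  have hr : D3 ≫ Rr = 𝟙 _ := by
    apply perm_hom_ext
    intro q
    rw [Rep.hom_comp, Representation.IntertwiningMap.comp_apply]
    have e : D3.hom (Finsupp.single q (1 : k)) = d3f k q := permLift_single _ _ _ _
    change Rr.hom (D3.hom (Finsupp.single q (1 : k))) = Finsupp.single q 1
    rw [e]
    exact hret q
  have hepi : Epi D0 := by
    rw [Rep.epi_iff_surjective]
    intro n
    have hx : Valid col Adj ∅ (fun _ => none : State Vx) := ⟨by simp, by simp, by simp⟩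
    refine ⟨Finsupp.single (cmk (fun _ => none) hx 1) n, ?_⟩
    change Finsupp.linearCombination k (d0f k) _ = n
    rw [Finsupp.linearCombination_single]
    simp [d0f]
  exact hasProjectiveDimensionLE_two_of_split D3 D2 D1 D0 h32 h21 h10
    (rep_exact_of _ _ h32 (fun z hz => exact_X2 k z hz))
    (rep_exact_of _ _ h21 (fun z hz => exact_X1 k z hz))
    (rep_exact_of _ _ h10 (fun z hz => exact_X0 k z hz)) Rr hr

/-! ### the lower bound -/

section lower

variable {k}

theorem freeLift_trivial_single {G : Type} [Group G] {n : ℕ}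
    (c : (Fin n → G) → k) (w : Fin n → G) (g : G) (r : k) :
    (Rep.freeLift k G (Rep.trivial k G k) c).hom (Finsupp.single w (.single g r)) = r * c w := by
  change (Representation.freeLift (Rep.trivial k G k).ρ c) (Finsupp.single w (.single g r)) = _
  rw [Representation.freeLift_single_single]
  rfl

theorem hom_trivial_single {G : Type} [Group G] {n : ℕ}
    (f : Rep.free k G (Fin n → G) ⟶ Rep.trivial k G k) (w : Fin n → G) (g : G) (r : k) :
    f.hom (Finsupp.single w (.single g r)) = r * f.hom (Finsupp.single w (.single 1 1)) := by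
  have h : f = Rep.freeLift k G (Rep.trivial k G k)
      (fun w => f.hom (Finsupp.single w (.single 1 1))) := by
    apply Rep.free_ext
    intro w
    rw [freeLift_trivial_single, one_mul]
  rw [h, freeLift_trivial_single, freeLift_trivial_single, one_mul]

/-- If the trivial module `k` has projective dimension `< 2`, every 2-cocycle (with trivial
coefficients `k`) is a coboundary. -/
theorem exists_coboundary_of_hasProjectiveDimensionLT_two {G : Type} [Group G]
    (hpd : HasProjectiveDimensionLT (Rep.trivial k G k) 2) (c : G → G → k)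
    (hc : ∀ x y z, c y z - c (x * y) z + c x (y * z) - c x y = 0) :
    ∃ F : G → k, ∀ a b, c a b = F b - F (a * b) + F a := by
  let R := Rep.barResolution k G
  let Y : Rep k G := Rep.trivial k G k
  -- the cocycle
  let c' : (Fin 2 → G) → k := fun v => c (v 0) (v 1)
  let f : R.complex.X 2 ⟶ Y := Rep.freeLift k G Y c'
  have hf : R.complex.d 3 2 ≫ f = 0 := by
    change (Rep.barComplex k G).d 3 2 ≫ f = 0
    rw [Rep.barComplex.d_def]
    apply Rep.free_ext
    intro v
    rw [Rep.hom_comp, Representation.IntertwiningMap.comp_apply, Rep.barComplex.d_single]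
    rw [map_add, map_sum]
    simp only [Fin.sum_univ_succ, Fin.sum_univ_zero]
    change (Rep.freeLift k G (Rep.trivial k G k) c').hom _ +
      ((Rep.freeLift k G (Rep.trivial k G k) c').hom _ +
      ((Rep.freeLift k G (Rep.trivial k G k) c').hom _ +
      ((Rep.freeLift k G (Rep.trivial k G k) c').hom _ + 0))) = 0
    rw [freeLift_trivial_single, freeLift_trivial_single, freeLift_trivial_single,
      freeLift_trivial_single]
    have h := hc (v 0) (v 1) (v 2)
    simp only [Fin.isValue, Fin.succ_zero_eq_one, Fin.succ_one_eq_two, one_mul, Nat.reduceAdd, Fin.coe_ofNat_eq_mod, Nat.zero_mod, zero_add, pow_one, Fin.contractNth, lt_self_iff_false, ↓reduceIte, Fin.castSucc_zero, Nat.mod_succ, not_lt_zero, one_ne_zero, neg_mul, Nat.one_mod, even_two, Even.neg_pow, one_pow, Order.lt_one_iff, Fin.castSucc_one, Order.lt_two_iff, zero_le, Std.le_refl, add_zero, c']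
    linear_combination h
  let _ := HasExt.standard (Rep k G)
  have h0 : R.extMk f 3 rfl hf = 0 := Abelian.Ext.eq_zero_of_hasProjectiveDimensionLT _ 2 le_rfl
  rw [R.extMk_eq_zero_iff f 3 rfl hf 1 rfl] at h0
  obtain ⟨g0, hg0⟩ := h0
  obtain ⟨g, hg⟩ : ∃ g : Rep.free k G (Fin 1 → G) ⟶ Rep.trivial k G k,
      Rep.barComplex.d k G 1 ≫ g = Rep.freeLift k G (Rep.trivial k G k) c' := by
    refine ⟨g0, ?_⟩
    rw [← Rep.barComplex.d_def]
    exact hg0
  refine ⟨fun h => g.hom (Finsupp.single (fun _ : Fin 1 => h) (.single 1 1)), ?_⟩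
  intro a b
  have h : (Rep.barComplex.d k G 1 ≫ g).hom (Finsupp.single ![a, b] (.single 1 1)) =
      (Rep.freeLift k G (Rep.trivial k G k) c').hom (Finsupp.single ![a, b] (.single 1 1)) := by
    rw [hg]
  rw [freeLift_trivial_single, Rep.hom_comp, Representation.IntertwiningMap.comp_apply,
    Rep.barComplex.d_single, map_add, map_sum] at h
  simp only [Fin.sum_univ_succ, Fin.sum_univ_zero] at h
  rw [hom_trivial_single, hom_trivial_single, hom_trivial_single] at h
  have e0 : (fun i : Fin 1 => ![a, b] i.succ) = fun _ => b := by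
    funext i; fin_cases i; rfl
  have e1 : (Fin.contractNth (0 : Fin 2) (fun x1 x2 => x1 * x2) ![a, b]) =
      fun _ : Fin 1 => a * b := by
    funext i; fin_cases i; rfl
  have e2 : (Fin.contractNth (Fin.succ 0 : Fin 2) (fun x1 x2 => x1 * x2) ![a, b]) =
      fun _ : Fin 1 => a := by
    funext i; fin_cases i; rfl
  rw [e0, e1, e2] at h
  simp only [one_mul, Nat.reduceAdd, Fin.isValue, Fin.coe_ofNat_eq_mod, Nat.zero_mod, zero_add, pow_one, MonoidAlgebra.single_neg, Finsupp.single_neg, map_neg, Fin.succ_zero_eq_one, Nat.mod_succ, even_two, Even.neg_pow, one_pow, add_zero, Matrix.cons_val_zero, Matrix.cons_val_one, Matrix.cons_val_fin_one, c'] at h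
  linear_combination -h

/-- If `G` contains commuting elements `x, y` separated by two homomorphisms to `ℤ`, then the
trivial module `k ≠ 0` does not have projective dimension `< 2`. -/
theorem not_hasProjectiveDimensionLT_two [Nontrivial k] {G : Type} [Group G] (x y : G)
    (hxy : x * y = y * x)
    (α β : G → ℤ) (hα : ∀ g h, α (g * h) = α g + α h) (hβ : ∀ g h, β (g * h) = β g + β h)
    (h1 : α x = 1) (h2 : β y = 1) (h3 : α y = 0) :
    ¬ HasProjectiveDimensionLT (Rep.trivial k G k) 2 := by
  intro hpd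
  obtain ⟨F, hF⟩ := exists_coboundary_of_hasProjectiveDimensionLT_two hpd
    (fun a b => ((α a : ℤ) : k) * ((β b : ℤ) : k))
    (fun x y z => by simp only [hα, hβ, Int.cast_add]; ring)
  have e1 := hF x y
  have e2 := hF y x
  rw [h1, h2] at e1
  rw [h3, ← hxy] at e2
  simp only [Int.cast_one, Int.cast_zero, mul_one, zero_mul] at e1 e2
  have : (1 : k) = 0 := by linear_combination e1 - e2
  exact one_ne_zero this

variable (k)

/-- **`cd_k G ≥ 2`.** -/
theorem GG_not_hasProjectiveDimensionLT_two [Nontrivial k] (h0 : Nonempty (I3 0))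
    (h2 : Nonempty (I3 2)) :
    ¬ HasProjectiveDimensionLT (Rep.trivial k (GG I3) k) 2 := by
  obtain ⟨i⟩ := h0
  obtain ⟨j⟩ := h2
  let g0 : GenW I3 := ⟨.v0 0, i⟩
  let g1 : GenW I3 := ⟨.v0 1, i⟩
  let t0 : Tri := .m0 []
  let t1 : Tri := .m1 []
  let k0 : GenW I3 := ⟨.v2 t0, j⟩
  let k1 : GenW I3 := ⟨.v2 t1, j⟩
  let x : GG I3 := ⟨Racg.s g0 * Racg.s g1, s_mul_s_mem_GG rfl⟩
  let y : GG I3 := ⟨Racg.s k0 * Racg.s k1, s_mul_s_mem_GG rfl⟩
  have hxy : x * y = y * x := by
    apply Subtype.ext
    change (Racg.s g0 * Racg.s g1) * (Racg.s k0 * Racg.s k1) =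
      ((Racg.s k0 * Racg.s k1) * (Racg.s g0 * Racg.s g1) : WW I3)
    have c00 : (Racg.s g0 * Racg.s k0 : WW I3) = Racg.s k0 * Racg.s g0 :=
      Racg.s_comm (Or.inr trivial)
    have c01 : (Racg.s g0 * Racg.s k1 : WW I3) = Racg.s k1 * Racg.s g0 :=
      Racg.s_comm (Or.inr trivial)
    have c10 : (Racg.s g1 * Racg.s k0 : WW I3) = Racg.s k0 * Racg.s g1 :=
      Racg.s_comm (Or.inr trivial)
    have c11 : (Racg.s g1 * Racg.s k1 : WW I3) = Racg.s k1 * Racg.s g1 :=
      Racg.s_comm (Or.inr trivial)
    have C0 : Commute (Racg.s g0 : WW I3) (Racg.s k0 * Racg.s k1) :=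
      Commute.mul_right c00 c01
    have C1 : Commute (Racg.s g1 : WW I3) (Racg.s k0 * Racg.s k1) :=
      Commute.mul_right c10 c11
    exact Commute.mul_left C0 C1
  have hne : (idx k0 : JJ I3) ≠ idx g0 := by
    intro h
    have h' : (2 : Fin 3) = 0 := congrArg Sigma.fst h
    exact absurd h' (by decide)
  have hv : (Vx.v0 0) ≠ Vx.v0 1 := by
    intro h
    injection h with h
    exact absurd h (by decide)
  have ht : (Vx.v2 t0) ≠ Vx.v2 t1 := by
    intro h
    injection h with h
    exact absurd h (by simp [t0, t1])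
  refine not_hasProjectiveDimensionLT_two x y hxy (foldZ (idx g0) (.v0 1))
    (foldZ (idx k0) (.v2 t1)) (foldZ_mul _ _) (foldZ_mul _ _) ?_ ?_ ?_
  · change rotD (foldHom (idx g0) (.v0 1) (Racg.s g0 * Racg.s g1)) = 1
    rw [map_mul, foldHom_s_ne rfl hv,
      foldHom_s_eq (show idx g1 = idx g0 from rfl) (show g1.1 = Vx.v0 1 from rfl),
      DihedralGroup.sr_mul_sr]
    rfl
  · change rotD (foldHom (idx k0) (.v2 t1) (Racg.s k0 * Racg.s k1)) = 1
    rw [map_mul, foldHom_s_ne rfl ht,
      foldHom_s_eq (show idx k1 = idx k0 from rfl) (show k1.1 = Vx.v2 t1 from rfl),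
      DihedralGroup.sr_mul_sr]
    rfl
  · change rotD (foldHom (idx g0) (.v0 1) (Racg.s k0 * Racg.s k1)) = 0
    rw [map_mul, foldHom_s_one hne, foldHom_s_one (show idx k1 ≠ idx g0 from hne)]
    rfl

/-- The cohomological dimension of `G` over every nonzero commutative ring is two. -/
theorem cd_eq_two [Nontrivial k] (h0 : Nonempty (I3 0)) (h2 : Nonempty (I3 2)) :
    projectiveDimension (Rep.trivial k (GG I3) k) = 2 :=
  pd_eq_two _ (hasProjectiveDimensionLE_two k I3) (GG_not_hasProjectiveDimensionLT_two k h0 h2)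

open Cardinal in
/-- A subgroup of index `< |I₀| < |I₂|` has cohomological dimension `≥ 2` over `k`. -/
theorem not_hasProjectiveDimensionLT_two_sub [Nontrivial k] (D : Subgroup (GG I3))
    (h0 : #(GG I3 ⧸ D) < #(I3 0)) (h2 : #(GG I3 ⧸ D) < #(I3 2)) :
    ¬ HasProjectiveDimensionLT (Rep.trivial k D k) 2 := by
  let t0 : Tri := .m0 []
  let t1 : Tri := .m1 []
  let x' : I3 0 → GG I3 := fun i =>
    ⟨Racg.s ⟨.v0 0, i⟩ * Racg.s ⟨.v0 1, i⟩, s_mul_s_mem_GG rfl⟩
  let y' : I3 2 → GG I3 := fun j =>
    ⟨Racg.s ⟨.v2 t0, j⟩ * Racg.s ⟨.v2 t1, j⟩, s_mul_s_mem_GG rfl⟩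
  -- pigeonhole
  have pig : ∀ {I : Type} (f : I → GG I3), #(GG I3 ⧸ D) < #I →
      ∃ i i', i ≠ i' ∧ f i * (f i')⁻¹ ∈ D := by
    intro I f hI
    by_contra hcon
    push Not at hcon
    refine absurd (mk_le_of_injective (f := fun i => (((f i)⁻¹ : GG I3) : GG I3 ⧸ D)) ?_)
      (not_le.2 hI)
    intro i i' h
    by_contra hne
    apply hcon i i' hne
    have h' := QuotientGroup.eq.1 h
    rwa [inv_inv] at h'
  obtain ⟨i, i', hii, hx⟩ := pig x' h0
  obtain ⟨j, j', hjj, hy⟩ := pig y' h2
  have hcom : ∀ (i : I3 0) (j : I3 2), x' i * y' j = y' j * x' i := by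
    intro i j
    apply Subtype.ext
    change (Racg.s (⟨.v0 0, i⟩ : GenW I3) * Racg.s ⟨.v0 1, i⟩) *
        (Racg.s ⟨.v2 t0, j⟩ * Racg.s ⟨.v2 t1, j⟩) =
      ((Racg.s ⟨.v2 t0, j⟩ * Racg.s ⟨.v2 t1, j⟩) *
        (Racg.s ⟨.v0 0, i⟩ * Racg.s ⟨.v0 1, i⟩) : WW I3)
    have c00 : (Racg.s (⟨.v0 0, i⟩ : GenW I3) * Racg.s ⟨.v2 t0, j⟩ : WW I3) =
        Racg.s ⟨.v2 t0, j⟩ * Racg.s ⟨.v0 0, i⟩ := Racg.s_comm (Or.inr trivial)
    have c01 : (Racg.s (⟨.v0 0, i⟩ : GenW I3) * Racg.s ⟨.v2 t1, j⟩ : WW I3) =
        Racg.s ⟨.v2 t1, j⟩ * Racg.s ⟨.v0 0, i⟩ := Racg.s_comm (Or.inr trivial)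
    have c10 : (Racg.s (⟨.v0 1, i⟩ : GenW I3) * Racg.s ⟨.v2 t0, j⟩ : WW I3) =
        Racg.s ⟨.v2 t0, j⟩ * Racg.s ⟨.v0 1, i⟩ := Racg.s_comm (Or.inr trivial)
    have c11 : (Racg.s (⟨.v0 1, i⟩ : GenW I3) * Racg.s ⟨.v2 t1, j⟩ : WW I3) =
        Racg.s ⟨.v2 t1, j⟩ * Racg.s ⟨.v0 1, i⟩ := Racg.s_comm (Or.inr trivial)
    exact Commute.mul_left (Commute.mul_right c00 c01) (Commute.mul_right c10 c11)
  have hC : ∀ i j, Commute (x' i) (y' j) := hcom
  let x : D := ⟨x' i * (x' i')⁻¹, hx⟩
  let y : D := ⟨y' j * (y' j')⁻¹, hy⟩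
  have hxy : x * y = y * x := by
    apply Subtype.ext
    exact Commute.mul_left (Commute.mul_right (hC i j) (hC i j').inv_right)
      (Commute.mul_right (hC i' j) (hC i' j').inv_right).inv_left
  have hv : (Vx.v0 0) ≠ Vx.v0 1 := by
    intro h
    injection h with h
    exact absurd h (by decide)
  have ht : (Vx.v2 t0) ≠ Vx.v2 t1 := by
    intro h
    injection h with h
    exact absurd h (by simp [t0, t1])
  let α : GG I3 → ℤ := foldZ ⟨0, i⟩ (.v0 1)
  let β : GG I3 → ℤ := foldZ ⟨2, j⟩ (.v2 t1)
  have hα : ∀ g h, α (g * h) = α g + α h := foldZ_mul _ _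
  have hβ : ∀ g h, β (g * h) = β g + β h := foldZ_mul _ _
  have inv_of : ∀ (γ : GG I3 → ℤ), (∀ g h, γ (g * h) = γ g + γ h) → ∀ g, γ g⁻¹ = - γ g := by
    intro γ hγ g
    have h1 := hγ 1 1
    rw [mul_one] at h1
    have h2 := hγ g⁻¹ g
    rw [inv_mul_cancel] at h2
    linarith
  have ne0 : ∀ {c : Fin 3} {a b : I3 c}, a ≠ b → (⟨c, a⟩ : JJ I3) ≠ ⟨c, b⟩ := by
    intro c a b h h'
    exact h (eq_of_heq (Sigma.mk.inj_iff.1 h').2)
  have ne2 : ∀ (a : I3 0) (b : I3 2), (⟨2, b⟩ : JJ I3) ≠ ⟨0, a⟩ := by
    intro a b h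
    have h' : (2 : Fin 3) = 0 := congrArg Sigma.fst h
    exact absurd h' (by decide)
  have a1 : α (x' i) = 1 := by
    change rotD (foldHom (⟨0, i⟩ : JJ I3) (.v0 1)
      (Racg.s (⟨.v0 0, i⟩ : GenW I3) * Racg.s (⟨.v0 1, i⟩ : GenW I3))) = 1
    rw [map_mul, foldHom_s_ne (show idx (⟨.v0 0, i⟩ : GenW I3) = ⟨0, i⟩ from rfl) hv,
      foldHom_s_eq (show idx (⟨.v0 1, i⟩ : GenW I3) = ⟨0, i⟩ from rfl)
        (show (⟨.v0 1, i⟩ : GenW I3).1 = Vx.v0 1 from rfl),
      DihedralGroup.sr_mul_sr]
    rfl
  have a2 : α (x' i') = 0 := by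
    change rotD (foldHom (⟨0, i⟩ : JJ I3) (.v0 1)
      (Racg.s (⟨.v0 0, i'⟩ : GenW I3) * Racg.s (⟨.v0 1, i'⟩ : GenW I3))) = 0
    rw [map_mul, foldHom_s_one (show idx (⟨.v0 0, i'⟩ : GenW I3) ≠ ⟨0, i⟩ from ne0 hii.symm),
      foldHom_s_one (show idx (⟨.v0 1, i'⟩ : GenW I3) ≠ ⟨0, i⟩ from ne0 hii.symm)]
    rfl
  have a3 : ∀ j, α (y' j) = 0 := by
    intro j
    change rotD (foldHom (⟨0, i⟩ : JJ I3) (.v0 1)
      (Racg.s (⟨.v2 t0, j⟩ : GenW I3) * Racg.s (⟨.v2 t1, j⟩ : GenW I3))) = 0
    rw [map_mul, foldHom_s_one (show idx (⟨.v2 t0, j⟩ : GenW I3) ≠ ⟨0, i⟩ from ne2 i j),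
      foldHom_s_one (show idx (⟨.v2 t1, j⟩ : GenW I3) ≠ ⟨0, i⟩ from ne2 i j)]
    rfl
  have b1 : β (y' j) = 1 := by
    change rotD (foldHom (⟨2, j⟩ : JJ I3) (.v2 t1)
      (Racg.s (⟨.v2 t0, j⟩ : GenW I3) * Racg.s (⟨.v2 t1, j⟩ : GenW I3))) = 1
    rw [map_mul, foldHom_s_ne (show idx (⟨.v2 t0, j⟩ : GenW I3) = ⟨2, j⟩ from rfl) ht,
      foldHom_s_eq (show idx (⟨.v2 t1, j⟩ : GenW I3) = ⟨2, j⟩ from rfl)
        (show (⟨.v2 t1, j⟩ : GenW I3).1 = Vx.v2 t1 from rfl),
      DihedralGroup.sr_mul_sr]
    rfl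
  have b2 : β (y' j') = 0 := by
    change rotD (foldHom (⟨2, j⟩ : JJ I3) (.v2 t1)
      (Racg.s (⟨.v2 t0, j'⟩ : GenW I3) * Racg.s (⟨.v2 t1, j'⟩ : GenW I3))) = 0
    rw [map_mul, foldHom_s_one (show idx (⟨.v2 t0, j'⟩ : GenW I3) ≠ ⟨2, j⟩ from ne0 hjj.symm),
      foldHom_s_one (show idx (⟨.v2 t1, j'⟩ : GenW I3) ≠ ⟨2, j⟩ from ne0 hjj.symm)]
    rfl
  refine not_hasProjectiveDimensionLT_two x y hxy (fun g => α g) (fun g => β g)
    (fun g h => hα g h) (fun g h => hβ g h) ?_ ?_ ?_
  · change α (x' i * (x' i')⁻¹) = 1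
    rw [hα, inv_of α hα, a1, a2, neg_zero, add_zero]
  · change β (y' j * (y' j')⁻¹) = 1
    rw [hβ, inv_of β hβ, b1, b2, neg_zero, add_zero]
  · change α (y' j * (y' j')⁻¹) = 0
    rw [hα, inv_of α hα, a3, a3, neg_zero, add_zero]

open Cardinal in
/-- A subgroup of index `< |I₀| < |I₂|` has cohomological dimension two over every nonzero
commutative ring. -/
theorem cd_eq_two_sub [Nontrivial k] (D : Subgroup (GG I3))
    (h0 : #(GG I3 ⧸ D) < #(I3 0)) (h2 : #(GG I3 ⧸ D) < #(I3 2)) :
    projectiveDimension (Rep.trivial k D k) = 2 :=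
  pd_eq_two _ (hasProjectiveDimensionLE_two_sub k D)
    (not_hasProjectiveDimensionLT_two_sub k D h0 h2)

end lower

end Vale.Agent.P173.OverK
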