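import Vale.Agent.P173.Bdl.B1
import Mathlib.GroupTheory.Coxeter.Basic

/-! # P173: the group `W` is a right-angled Coxeter group -/

namespace Vale.Agent.P173

variable (I3 : Fin 3 → Type)

open Classical in
/-- The Coxeter matrix of `W`. -/
noncomputable def coxMat : CoxeterMatrix (GenW I3) where
  M := fun g h => if g = h then 1 else if g.1 = h.1 ∨ Adj g.1 h.1 then 2 else 0
  isSymm := Matrix.IsSymm.ext fun g h => by
    have h1 : (h = g) ↔ (g = h) := eq_comm
    have h2 : (h.1 = g.1 ∨ Adj h.1 g.1) ↔ (g.1 = h.1 ∨ Adj g.1 h.1) :=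
      or_congr eq_comm ⟨fun h => h.symm, fun h => h.symm⟩
    simp only [h1, h2]
  diagonal g := if_pos rfl
  off_diagonal g h hgh := by
    rw [if_neg hgh]
    split_ifs <;> decide

theorem coxMat_ne {g h : GenW I3} (hgh : g ≠ h) : coxMat I3 g h = 2 ∨ coxMat I3 g h = 0 := by
  classical
  change (if g = h then 1 else if g.1 = h.1 ∨ Adj g.1 h.1 then 2 else 0) = 2 ∨
    (if g = h then 1 else if g.1 = h.1 ∨ Adj g.1 h.1 then 2 else 0) = 0
  rw [if_neg hgh]
  split_ifs
  · exact Or.inl rfl
  · exact Or.inr rfl

/-- `W` embeds in (in fact, it is) a right-angled Coxeter group. -/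
theorem exists_coxeter : ∃ f : WW I3 →* (coxMat I3).Group, Function.Injective f := by
  classical
  let M := coxMat I3
  let cs := M.toCoxeterSystem
  have hcomm : ∀ g h : GenW I3, (g.1 = h.1 ∨ Adj g.1 h.1) →
      cs.simple g * cs.simple h = cs.simple h * cs.simple g := by
    intro g h hgh
    by_cases e : g = h
    · rw [e]
    · have h1 := cs.simple_mul_simple_pow g h
      have h2 : M g h = 2 := by
        change (if g = h then 1 else if g.1 = h.1 ∨ Adj g.1 h.1 then 2 else 0) = 2
        rw [if_neg e, if_pos hgh]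
      rw [h2, pow_two] at h1
      have h3 := eq_inv_of_mul_eq_one_left h1
      rw [mul_inv_rev, cs.inv_simple, cs.inv_simple] at h3
      exact h3
  let f : WW I3 →* M.Group := Racg.lift (fun g => cs.simple g)
    (fun g => cs.simple_mul_simple_self g) (fun g h hgh => hcomm g h hgh)
  have hlift : M.IsLiftable (fun g : GenW I3 => (Racg.s g : WW I3)) := by
    intro g h
    by_cases e : g = h
    · subst e
      rw [Racg.s_mul_s, one_pow]
    · by_cases hgh : g.1 = h.1 ∨ Adj g.1 h.1
      · have h2 : M g h = 2 := by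
          change (if g = h then 1 else if g.1 = h.1 ∨ Adj g.1 h.1 then 2 else 0) = 2
          rw [if_neg e, if_pos hgh]
        rw [h2, pow_two, mul_assoc, ← mul_assoc (Racg.s h : WW I3),
          (Racg.s_comm (Or.imp Eq.symm (fun h => h.symm) hgh) :
            (Racg.s h * Racg.s g : WW I3) = Racg.s g * Racg.s h),
          mul_assoc, Racg.s_mul_s, mul_one, Racg.s_mul_s]
      · have h2 : M g h = 0 := by
          change (if g = h then 1 else if g.1 = h.1 ∨ Adj g.1 h.1 then 2 else 0) = 0
          rw [if_neg e, if_neg hgh]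
        rw [h2, pow_zero]
  let F : M.Group →* WW I3 := cs.lift ⟨_, hlift⟩
  have hF : F.comp f = MonoidHom.id _ := by
    apply Racg.hom_ext
    intro g
    rw [MonoidHom.comp_apply]
    have h1 : f (Racg.s g) = cs.simple g := Racg.lift_s _ _ _ g
    rw [h1]
    exact cs.lift_apply_simple hlift g
  refine ⟨f, fun a b hab => ?_⟩
  have h1 := DFunLike.congr_fun hF a
  have h2 := DFunLike.congr_fun hF b
  rw [MonoidHom.comp_apply] at h1 h2
  rw [hab, h2] at h1
  exact h1.symm

end Vale.Agent.P173
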