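import Vale.Agent.P173.GdDefs

/-! Subgroups of fundamental groups of aspherical complexes. -/

namespace Vale.Agent.P173

universe u v

/-- `Γ` is isomorphic to a subgroup of the fundamental group of an aspherical complex of dimension
at most `n`: there are a path connected Hausdorff space `X` with the structure of a CW complex all
of whose cells have dimension at most `n`, with a contractible covering space, and an injective
homomorphism from `Γ` to the fundamental group of `X` at some base point. -/
def EmbedsInAspherical (Γ : Type) [Group Γ] (n : ℕ) : Prop :=
  ∃ (X : Type u) (_ : TopologicalSpace X) (_ : T2Space X)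
    (_ : Topology.CWComplex (Set.univ : Set X)),
    (∀ m > n, IsEmpty (Topology.RelCWComplex.cell (Set.univ : Set X) m)) ∧
      PathConnectedSpace X ∧
      (∃ (E : Type v) (_ : TopologicalSpace E) (p : E → X), IsCoveringMap p ∧ ContractibleSpace E) ∧
      ∃ (x : X) (f : Γ →* FundamentalGroup X x), Function.Injective f

end Vale.Agent.P173
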