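import Vale.Agent.P173.Bdl.B1

/-! # P173: subgroups of small index in `G` have no aspherical presentation

The argument of sections 3.1 - 3.7 for a subgroup `D` of `G` of index `< |I₀|`: the closed sets
`N c` are chosen so that they contain the supports of representatives of the cosets of `D`; then
the pieces of `G` still have the right triple intersections after intersecting them with `D`. -/

namespace Vale.Agent.P173.Sub

open Cardinal Vale.Agent.P173

universe u

section Closed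

variable {I3 : Fin 3 → Type} {X R : Type u} (D : Subgroup (GG I3))

/-- Good subsets. -/
structure GoodD (φ : X → D) (rel : R → FreeGroup X) (M : Set (Al I3 X R)) : Prop where
  rel_mem : ∀ r ∈ MR M, rel r ∈ FX (MX M)
  phi_mem : ∀ x ∈ MX M, ((φ x : GG I3) : WW I3) ∈ WM (MJ M)
  surj : ∀ g : D, ((g : GG I3) : WW I3) ∈ WM (MJ M) → ∃ w ∈ FX (MX M), FreeGroup.lift φ w = g
  ker : ∀ w ∈ FX (MX M), FreeGroup.lift φ w = 1 → w ∈ NC rel (MX M) (MR M)

/-- There is a finitary closure operator with countable values whose closed sets are good. -/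
theorem exists_op (φ : X → D) (rel : R → FreeGroup X)
    (hsurj : Function.Surjective (FreeGroup.lift φ))
    (hker : ∀ w, FreeGroup.lift φ w = 1 → w ∈ Subgroup.normalClosure (Set.range rel)) :
    ∃ op : Finset (Al I3 X R) → Set (Al I3 X R), (∀ F, (op F).Countable) ∧
      ∀ M : Set (Al I3 X R), (∀ F : Finset (Al I3 X R), (F : Set (Al I3 X R)) ⊆ M → op F ⊆ M) →
        GoodD D φ rel M := by
  classical
  choose lr hlr using fun r => exists_finset_mem_FX (rel r)
  choose sx hsx using fun x => exists_finset_mem_WM ((φ x : GG I3) : WW I3)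
  choose wg hwg using hsurj
  choose lg hlg using fun g => exists_finset_mem_FX (wg g)
  have hAB : ∀ w : FreeGroup X, ∃ (A : Finset X) (B : Finset R), FreeGroup.lift φ w = 1 →
      w ∈ NC rel (A : Set X) (B : Set R) := by
    intro w
    by_cases h : FreeGroup.lift φ w = 1
    · obtain ⟨A, B, hAB⟩ := exists_finset_mem_NC rel (hker w h)
      exact ⟨A, B, fun _ => hAB⟩
    · exact ⟨∅, ∅, fun h' => absurd h' h⟩
  choose Aw Bw hABw using hAB
  let iX : X → Al I3 X R := fun x => Sum.inr (Sum.inl x)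
  let iR : R → Al I3 X R := fun r => Sum.inr (Sum.inr r)
  let op1 : Finset (Al I3 X R) → Set (Al I3 X R) := fun F =>
    ⋃ r ∈ MR (F : Set (Al I3 X R)), iX '' (lr r : Set X)
  let op2 : Finset (Al I3 X R) → Set (Al I3 X R) := fun F =>
    ⋃ x ∈ MX (F : Set (Al I3 X R)), Sum.inl '' (sx x : Set (JJ I3))
  let op3 : Finset (Al I3 X R) → Set (Al I3 X R) := fun F =>
    ⋃ g ∈ {g : D | ((g : GG I3) : WW I3) ∈ WM (MJ (F : Set (Al I3 X R)))}, iX '' (lg g : Set X)
  let op4 : Finset (Al I3 X R) → Set (Al I3 X R) := fun F =>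
    ⋃ w ∈ (FX (MX (F : Set (Al I3 X R))) : Set (FreeGroup X)),
      (iX '' (Aw w : Set X) ∪ iR '' (Bw w : Set R))
  have hMRfin : ∀ F : Finset (Al I3 X R), (MR (F : Set (Al I3 X R))).Finite := fun F =>
    F.finite_toSet.preimage (by
      intro a _ b _ h
      simpa using h)
  have hMXfin : ∀ F : Finset (Al I3 X R), (MX (F : Set (Al I3 X R))).Finite := fun F =>
    F.finite_toSet.preimage (by
      intro a _ b _ h
      simpa using h)
  have hMJfin : ∀ F : Finset (Al I3 X R), (MJ (F : Set (Al I3 X R))).Finite := fun F =>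
    F.finite_toSet.preimage (by
      intro a _ b _ h
      simpa using h)
  refine ⟨fun F => op1 F ∪ op2 F ∪ op3 F ∪ op4 F, ?_, ?_⟩
  · intro F
    refine Set.Countable.union (Set.Countable.union (Set.Countable.union ?_ ?_) ?_) ?_
    · exact (hMRfin F).countable.biUnion (fun r _ => ((lr r).countable_toSet.image _))
    · exact (hMXfin F).countable.biUnion (fun x _ => ((sx x).countable_toSet.image _))
    · refine Set.Countable.biUnion ?_ (fun g _ => ((lg g).countable_toSet.image _))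
      have h1 : (WM (MJ (F : Set (Al I3 X R))) : Set (WW I3)).Countable := by
        rw [← le_aleph0_iff_set_countable]
        exact (mk_WM_le _).trans (max_le le_rfl (hMJfin F).countable.le_aleph0)
      exact h1.preimage (Subtype.val_injective.comp Subtype.val_injective)
    · refine Set.Countable.biUnion (countable_FX (hMXfin F).countable) (fun w _ => ?_)
      exact ((Aw w).countable_toSet.image _).union ((Bw w).countable_toSet.image _)
  · intro M hM
    have hM1 : ∀ F : Finset (Al I3 X R), (F : Set (Al I3 X R)) ⊆ M → op1 F ⊆ M := fun F hF =>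
      (fun y hy => hM F hF (Or.inl (Or.inl (Or.inl hy))))
    have hM2 : ∀ F : Finset (Al I3 X R), (F : Set (Al I3 X R)) ⊆ M → op2 F ⊆ M := fun F hF =>
      (fun y hy => hM F hF (Or.inl (Or.inl (Or.inr hy))))
    have hM3 : ∀ F : Finset (Al I3 X R), (F : Set (Al I3 X R)) ⊆ M → op3 F ⊆ M := fun F hF =>
      (fun y hy => hM F hF (Or.inl (Or.inr hy)))
    have hM4 : ∀ F : Finset (Al I3 X R), (F : Set (Al I3 X R)) ⊆ M → op4 F ⊆ M := fun F hF =>
      (fun y hy => hM F hF (Or.inr hy))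
    refine ⟨?_, ?_, ?_, ?_⟩
    · intro r hr
      refine FX_mono ?_ (hlr r)
      intro x hx
      refine hM1 {iR r} (by rw [Finset.coe_singleton, Set.singleton_subset_iff]; exact hr) ?_
      refine Set.mem_biUnion (x := r) ?_ ⟨x, hx, rfl⟩
      show iR r ∈ (({iR r} : Finset (Al I3 X R)) : Set (Al I3 X R))
      simp
    · intro x hx
      refine WM_mono ?_ (hsx x)
      intro j hj
      refine hM2 {iX x} (by rw [Finset.coe_singleton, Set.singleton_subset_iff]; exact hx) ?_
      refine Set.mem_biUnion (x := x) ?_ ⟨j, hj, rfl⟩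
      show iX x ∈ (({iX x} : Finset (Al I3 X R)) : Set (Al I3 X R))
      simp
    · intro g hg
      refine ⟨wg g, FX_mono ?_ (hlg g), hwg g⟩
      intro x hx
      obtain ⟨F, hF⟩ := exists_finset_mem_WM ((g : GG I3) : WW I3)
      -- intersect the finite support with `MJ M`
      have hg' : ((g : GG I3) : WW I3) ∈ WM (((F : Set (JJ I3))) ∩ MJ M) := by
        rw [WM_inter]
        exact ⟨hF, hg⟩
      let F' : Finset (Al I3 X R) := (F.filter (· ∈ MJ M)).image Sum.inl
      have hF' : (F' : Set (Al I3 X R)) ⊆ M := by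
        intro y hy
        have hy' : y ∈ (F.filter (· ∈ MJ M)).image Sum.inl := hy
        rw [Finset.mem_image] at hy'
        obtain ⟨j, hj, rfl⟩ := hy'
        exact (Finset.mem_filter.1 hj).2
      have hMJF' : ((F : Set (JJ I3))) ∩ MJ M ⊆ MJ (F' : Set (Al I3 X R)) := by
        intro j hj
        show Sum.inl j ∈ (F' : Set (Al I3 X R))
        rw [Finset.mem_coe, Finset.mem_image]
        exact ⟨j, Finset.mem_filter.2 ⟨hj.1, hj.2⟩, rfl⟩
      refine hM3 F' hF' ?_
      exact Set.mem_biUnion (x := g) (WM_mono hMJF' hg') ⟨x, hx, rfl⟩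
    · intro w hw h1
      obtain ⟨F, hF, hwF⟩ := exists_finset_mem_FX_of hw
      let F' : Finset (Al I3 X R) := F.image iX
      have hF' : (F' : Set (Al I3 X R)) ⊆ M := by
        intro y hy
        have hy' : y ∈ F.image iX := hy
        rw [Finset.mem_image] at hy'
        obtain ⟨j, hj, rfl⟩ := hy'
        exact hF hj
      have hMXF' : (F : Set X) ⊆ MX (F' : Set (Al I3 X R)) := by
        intro j hj
        show iX j ∈ (F' : Set (Al I3 X R))
        rw [Finset.mem_coe, Finset.mem_image]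
        exact ⟨j, hj, rfl⟩
      have hsub := hM4 F' hF'
      refine NC_mono rel ?_ ?_ (hABw w h1)
      · intro x hx
        exact hsub (Set.mem_biUnion (x := w) (FX_mono hMXF' hwF) (Or.inl ⟨x, hx, rfl⟩))
      · intro r hr
        exact hsub (Set.mem_biUnion (x := w) (FX_mono hMXF' hwF) (Or.inr ⟨r, hr, rfl⟩))

/-- The choice of the closed sets `N c` and the indices `b c`. -/
theorem exists_N (S0 : Set (JJ I3)) (hS0 : #S0 < #(I3 0)) (h0 : ℵ₀ < #(I3 0)) (h1 : #(I3 0) < #(I3 1)) (h2 : #(I3 1) < #(I3 2))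
    (φ : X → D) (rel : R → FreeGroup X)
    (hsurj : Function.Surjective (FreeGroup.lift φ))
    (hker : ∀ w, FreeGroup.lift φ w = 1 → w ∈ Subgroup.normalClosure (Set.range rel)) :
    ∃ (N : Fin 3 → Set (Al I3 X R)) (b : ∀ c, I3 c),
      (∀ c, Sum.inl '' S0 ⊆ N c) ∧ (∀ c c', GoodD D φ rel (N c ∩ N c')) ∧
      ∀ c c', (Sum.inl ⟨c', b c'⟩ : Al I3 X R) ∈ N c ↔ c' ≠ c := by
  classical
  obtain ⟨op, hop, hgood⟩ := exists_op D φ rel hsurj hker
  have hclosed := exists_closed op hop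
  -- the part of colour `c`
  let T : Fin 3 → Set (Al I3 X R) := fun c => Set.range (fun i : I3 c => Sum.inl ⟨c, i⟩)
  have hTinj : ∀ c, Function.Injective (fun i : I3 c => (Sum.inl ⟨c, i⟩ : Al I3 X R)) := by
    intro c i i' h
    have h' : (⟨c, i⟩ : JJ I3) = ⟨c, i'⟩ := Sum.inl_injective h
    exact eq_of_heq (Sigma.mk.inj_iff.1 h').2
  have hT : ∀ c, #(T c) = lift.{u} #(I3 c) := by
    intro c
    have := mk_range_eq_of_injective (hTinj c)
    rw [lift_uzero] at this
    exact this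
  -- a set of small cardinality misses an index of colour `c`
  have hmiss : ∀ (c : Fin 3) (N : Set (Al I3 X R)), #N < lift.{u} #(I3 c) →
      ∃ i : I3 c, (Sum.inl ⟨c, i⟩ : Al I3 X R) ∉ N := by
    intro c N hN
    by_contra hcon
    push Not at hcon
    have : T c ⊆ N := by
      rintro _ ⟨i, rfl⟩
      exact hcon i
    exact absurd (mk_le_mk_of_subset this) (not_le.2 (by rw [hT]; exact hN))
  have hl0 : ℵ₀ < lift.{u} #(I3 0) := by simpa only [Fin.isValue, aleph0_lt_lift, lift_aleph0] using lift_strictMono.{0, u} h0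
  have hl1 : lift.{u} #(I3 0) < lift.{u} #(I3 1) := by simpa only [Fin.isValue, lift_lt] using lift_strictMono.{0, u} h1
  have hl2 : lift.{u} #(I3 1) < lift.{u} #(I3 2) := by simpa only [Fin.isValue, lift_lt] using lift_strictMono.{0, u} h2
  let U0 : Set (Al I3 X R) := Sum.inl '' S0
  have hU0 : #U0 < lift.{u} #(I3 0) := by
    have h1 : #U0 ≤ lift.{u} #S0 := by
      have := mk_image_le_lift.{0, u} (f := (Sum.inl : JJ I3 → Al I3 X R)) (s := S0)
      rwa [lift_uzero] at this
    exact h1.trans_lt (lift_strictMono.{0, u} hS0)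
  obtain ⟨N2, hN2S, hN2c, hN2⟩ := hclosed (U0 ∪ (T 0 ∪ T 1))
  have hN2' : #N2 < lift.{u} #(I3 2) := by
    refine hN2.trans_lt (max_lt (hl0.trans (hl1.trans hl2)) ((mk_union_le _ _).trans_lt ?_))
    refine add_lt_of_lt (hl0.trans (hl1.trans hl2)).le (hU0.trans (hl1.trans hl2))
      ((mk_union_le _ _).trans_lt ?_)
    rw [hT, hT]
    exact add_lt_of_lt (hl0.trans (hl1.trans hl2)).le (hl1.trans hl2) hl2
  obtain ⟨b2, hb2⟩ := hmiss 2 N2 hN2'
  obtain ⟨N1, hN1S, hN1c, hN1⟩ := hclosed (U0 ∪ (T 0 ∪ {Sum.inl ⟨2, b2⟩}))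
  have hN1' : #N1 < lift.{u} #(I3 1) := by
    refine hN1.trans_lt (max_lt (hl0.trans hl1) ((mk_union_le _ _).trans_lt ?_))
    refine add_lt_of_lt (hl0.trans hl1).le (hU0.trans hl1) ((mk_union_le _ _).trans_lt ?_)
    rw [hT]
    refine add_lt_of_lt (hl0.trans hl1).le hl1 ?_
    rw [mk_singleton]
    exact one_lt_aleph0.trans (hl0.trans hl1)
  obtain ⟨b1, hb1⟩ := hmiss 1 N1 hN1'
  obtain ⟨N0, hN0S, hN0c, hN0⟩ := hclosed (U0 ∪ {Sum.inl ⟨1, b1⟩, Sum.inl ⟨2, b2⟩})
  have hN0' : #N0 < lift.{u} #(I3 0) := by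
    refine hN0.trans_lt (max_lt hl0 ((mk_union_le _ _).trans_lt ?_))
    refine add_lt_of_lt hl0.le hU0 ?_
    exact ((Set.toFinite _).countable.le_aleph0).trans_lt hl0
  obtain ⟨b0, hb0⟩ := hmiss 0 N0 hN0'
  let N : Fin 3 → Set (Al I3 X R) := fun c => match c with
    | 0 => N0 | 1 => N1 | 2 => N2
  let b : ∀ c, I3 c := fun c => match c with
    | 0 => b0 | 1 => b1 | 2 => b2
  have hNc : ∀ c, ∀ F : Finset (Al I3 X R), (F : Set (Al I3 X R)) ⊆ N c → op F ⊆ N c := by
    intro c
    fin_cases c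
    · exact hN0c
    · exact hN1c
    · exact hN2c
  refine ⟨N, b, ?_, ?_, ?_⟩
  · intro c
    fin_cases c
    · exact Set.subset_union_left.trans hN0S
    · exact Set.subset_union_left.trans hN1S
    · exact Set.subset_union_left.trans hN2S
  · intro c c'
    apply hgood
    intro F hF
    exact Set.subset_inter (hNc c F (hF.trans Set.inter_subset_left))
      (hNc c' F (hF.trans Set.inter_subset_right))
  · have e01 : (Sum.inl ⟨1, b1⟩ : Al I3 X R) ∈ N0 := hN0S (Or.inr (by simp))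
    have e02 : (Sum.inl ⟨2, b2⟩ : Al I3 X R) ∈ N0 := hN0S (Or.inr (by simp))
    have e10 : (Sum.inl ⟨0, b0⟩ : Al I3 X R) ∈ N1 := hN1S (Or.inr (Or.inl ⟨b0, rfl⟩))
    have e12 : (Sum.inl ⟨2, b2⟩ : Al I3 X R) ∈ N1 := hN1S (Or.inr (Or.inr rfl))
    have e20 : (Sum.inl ⟨0, b0⟩ : Al I3 X R) ∈ N2 := hN2S (Or.inr (Or.inl ⟨b0, rfl⟩))
    have e21 : (Sum.inl ⟨1, b1⟩ : Al I3 X R) ∈ N2 := hN2S (Or.inr (Or.inr ⟨b1, rfl⟩))
    intro c c'
    fin_cases c <;> fin_cases c'
    · exact iff_of_false hb0 (fun h => h rfl)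
    · exact iff_of_true e01 (by decide)
    · exact iff_of_true e02 (by decide)
    · exact iff_of_true e10 (by decide)
    · exact iff_of_false hb1 (fun h => h rfl)
    · exact iff_of_true e12 (by decide)
    · exact iff_of_true e20 (by decide)
    · exact iff_of_true e21 (by decide)
    · exact iff_of_false hb2 (fun h => h rfl)

end Closed

section Pieces

variable {I3 : Fin 3 → Type} (D : Subgroup (GG I3))

/-- The union of the supports of representatives of the cosets of `D`. -/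
theorem exists_support (h0 : ℵ₀ < #(I3 0)) (hD : #(GG I3 ⧸ D) < #(I3 0)) :
    ∃ S0 : Set (JJ I3), #S0 < #(I3 0) ∧
      ∀ g : GG I3, ∃ r : GG I3, (r : WW I3) ∈ WM S0 ∧ r * g ∈ D := by
  choose F hF using fun g : GG I3 => exists_finset_mem_WM (g : WW I3)
  let o : (GG I3 ⧸ D) → GG I3 := Quotient.out
  refine ⟨⋃ q : GG I3 ⧸ D, (F (o q) : Set (JJ I3)), ?_, fun g => ?_⟩
  · refine (mk_iUnion_le _).trans_lt (mul_lt_of_lt h0.le hD ?_)
    refine (ciSup_le' (a := ℵ₀) fun q => ?_).trans_lt h0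
    exact (F (o q)).countable_toSet.le_aleph0
  · refine ⟨(o (g : GG I3 ⧸ D))⁻¹, ?_, ?_⟩
    · rw [Subgroup.coe_inv]
      refine inv_mem (WM_mono ?_ (hF _))
      exact Set.subset_iUnion (fun q : GG I3 ⧸ D => (F (o q) : Set (JJ I3))) (g : GG I3 ⧸ D)
    · rw [← QuotientGroup.eq]
      exact QuotientGroup.out_eq' _

/-- **Sections 3.1 - 3.3 for subgroups**: the system of pieces of a presentation of `D`. -/
theorem exists_pieces (h0 : ℵ₀ < #(I3 0)) (h1 : #(I3 0) < #(I3 1)) (h2 : #(I3 1) < #(I3 2))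
    (hD : #(GG I3 ⧸ D) < #(I3 0))
    {X R : Type u} (φ : X → D) (rel : R → FreeGroup X)
    (hsurj : Function.Surjective (FreeGroup.lift φ))
    (hrel : ∀ r, FreeGroup.lift φ (rel r) = 1)
    (hker : ∀ w, FreeGroup.lift φ w = 1 → w ∈ Subgroup.normalClosure (Set.range rel)) :
    ∃ C : Hol.Pieces D X R Vx, C.φ = φ ∧ C.rel = rel ∧ C.E = Cl := by
  obtain ⟨S0, hS0, hrep⟩ := exists_support D h0 hD
  obtain ⟨N, b, hSN, hN, hb⟩ := exists_N D S0 hS0 h0 h1 h2 φ rel hsurj hker
  have hN' : ∀ c, GoodD D φ rel (N c) := fun c => by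
    have := hN c c
    rwa [Set.inter_self] at this
  have hSM : ∀ c, S0 ⊆ MJ (N c) := fun c j hj => hSN c ⟨j, hj, rfl⟩
  refine ⟨{
    φ := φ
    rel := rel
    E := Cl
    XN := fun v => MX (N (col v))
    RN := fun v => MR (N (col v))
    P := fun v => {h : D | (h : GG I3) ∈ PP N b v}
    rel_one := hrel
    ker_le := hker
    E_refl := Cl.refl
    E_symm := fun _ _ => Cl.symm
    P_step := ?_
    rel_mem := fun v r hr => (hN' (col v)).rel_mem r hr
    conn := ?_
    simp_conn := fun v w hw hw1 => (hN' (col v)).ker w hw hw1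
    nerve_le := ?_
    nerve_ge := ?_ }, rfl, rfl, rfl⟩
  · intro v x hx h
    exact PP_mul v ((φ x : D) : GG I3) (h : GG I3) ((hN' (col v)).phi_mem x hx)
  · intro v w h hh h' hh'
    have e1 := PP_diff v hh.1 hh'.1
    have e2 := PP_diff w hh.2 hh'.2
    have e3 : ((((h' * h⁻¹ : D) : GG I3)) : WW I3) ∈ WM (MJ (N (col v) ∩ N (col w))) := by
      have : MJ (N (col v) ∩ N (col w)) = MJ (N (col v)) ∩ MJ (N (col w)) := rfl
      rw [this, WM_inter]
      exact ⟨e1, e2⟩
    obtain ⟨u, hu, hu'⟩ := (hN (col v) (col w)).surj _ e3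
    exact ⟨u, hu, by rw [hu', inv_mul_cancel_right]⟩
  · rintro v w ⟨h, h1, h2⟩
    exact nerve_le_aux hb v w ⟨(h : GG I3), h1, h2⟩
  · intro u v w huv hvw huw
    obtain ⟨g, ⟨h1, h2⟩, h3⟩ := nerve_ge_aux hb u v w huv hvw huw
    obtain ⟨r, hr, hrg⟩ := hrep g
    have hrc : ∀ c, (r : WW I3) ∈ WM (MJ (N c)) := fun c => WM_mono (hSM c) hr
    exact ⟨⟨r * g, hrg⟩, ⟨(PP_mul u r g (hrc _)).2 h1, (PP_mul v r g (hrc _)).2 h2⟩,
      (PP_mul w r g (hrc _)).2 h3⟩

/-- No presentation of a subgroup of small index is aspherical. -/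
theorem not_aspherical (h0 : ℵ₀ < #(I3 0)) (h1 : #(I3 0) < #(I3 1)) (h2 : #(I3 1) < #(I3 2))
    (hD : #(GG I3 ⧸ D) < #(I3 0)) (P : Pres.{u} D) : ¬ P.Aspherical := by
  intro h
  obtain ⟨C, hφ, hrel, hE⟩ := exists_pieces D h0 h1 h2 hD
    P.φ (fun r => FreeGroup.mk (P.rel r)) P.surj
    (fun r => by
      have : FreeGroup.mk (P.rel r) ∈ (FreeGroup.lift P.φ).ker := by
        rw [P.ker]; exact Subgroup.subset_normalClosure ⟨r, rfl⟩
      exact this)
    (fun w hw => by rw [← P.ker]; exact hw)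
  refine Hol.no_pieces_star C hE fun B _ _ c => ?_
  obtain ⟨b, hb⟩ := h.star_left B c
  refine ⟨b, fun r h => ?_⟩
  rw [hφ, hrel]
  exact hb (Hol.S P.φ b) (fun a b' h => Hol.S_mul _ _ _ _ _) (fun x h => Hol.S_of _ _ _ _) r h

end Pieces

end Vale.Agent.P173.Sub
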