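import Vale.Agent.P173.Bdl.B1

/-! # P173: subgroups

Let `Z` be a cell complex of dimension at most two, `p : E → Z` a covering which is the quotient
by a group `D`, and let `Γ` be a group with an injective homomorphism `Γ → D`. Then `Γ\E` is again
a cell complex of dimension at most two. -/

open Set Topology unitInterval

namespace Vale.Agent.P173.Topo

universe u v w

section General

variable {Z : Type u} [TopologicalSpace Z]
variable {E : Type v} [TopologicalSpace E] {p : E → Z} {G : Type w} [Group G] [MulAction G E]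

/-- every point of the covering has an open neighbourhood on which `p` is injective -/
theorem exists_injOn_nhd_gen (hp : IsQuotientCoveringMap p G) (x : E) :
    ∃ W : Set E, IsOpen W ∧ x ∈ W ∧ InjOn p W := by
  obtain ⟨U, hU, hUd⟩ := hp.disjoint x
  refine ⟨interior U, isOpen_interior, mem_interior_iff_mem_nhds.2 hU, ?_⟩
  intro y hy z hz hyz
  obtain ⟨g, hg⟩ := hp.apply_eq_iff_mem_orbit.1 hyz
  have hg1 : g = 1 := hUd g ⟨y, ⟨z, interior_subset hz, hg⟩, interior_subset hy⟩
  subst hg1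
  simpa using hg.symm

theorem smul_cancel_gen (hp : IsQuotientCoveringMap p G) {g h : G} {x : E}
    (e : g • x = h • x) : g = h := by
  have := hp.isCancelSMul
  exact IsCancelSMul.right_cancel _ _ _ e

/-- proper discontinuity -/
theorem finite_smul_inter_gen [T2Space Z] (hp : IsQuotientCoveringMap p G) (C₁ C₂ : Set E)
    (h1 : IsCompact C₁) (h2 : IsCompact C₂) : {g : G | ((g • ·) '' C₁ ∩ C₂).Nonempty}.Finite := by
  have := hp.toContinuousConstSMul
  have hcl : IsClosed {z : E × E | p z.1 = p z.2} :=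
    isClosed_eq (hp.continuous.comp continuous_fst) (hp.continuous.comp continuous_snd)
  have hP : IsCompact (C₁ ×ˢ C₂ ∩ {z : E × E | p z.1 = p z.2}) := (h1.prod h2).inter_right hcl
  have key : {g : G | ∃ z ∈ (C₁ ×ˢ C₂ ∩ {z : E × E | p z.1 = p z.2}), z.2 = g • z.1}.Finite := by
    refine hP.induction_on (p := fun A => {g : G | ∃ z ∈ A, z.2 = g • z.1}.Finite)
      (by simp only [mem_empty_iff_false, false_and, exists_false, ofPred_false, finite_empty])
      (fun s t hst ht => ht.subset fun g ⟨z, hz, hg⟩ => ⟨z, hst hz, hg⟩)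
      (fun s t hs ht => (hs.union ht).subset ?_) ?_
    · rintro g ⟨z, hz | hz, hg⟩
      · exact Or.inl ⟨z, hz, hg⟩
      · exact Or.inr ⟨z, hz, hg⟩
    · rintro ⟨x, y⟩ ⟨-, hxy⟩
      obtain ⟨g₀, hg₀⟩ := hp.apply_eq_iff_mem_orbit.1 (Eq.symm hxy)
      obtain ⟨W, hW, hyW, hinj⟩ := exists_injOn_nhd_gen hp y
      refine ⟨{z | z.2 ∈ W ∧ g₀ • z.1 ∈ W}, ?_, ?_⟩
      · refine mem_nhdsWithin_of_mem_nhds (IsOpen.mem_nhds ?_ ⟨hyW, ?_⟩)
        · exact (hW.preimage continuous_snd).inter
            (hW.preimage ((continuous_const_smul g₀).comp continuous_fst))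
        · have h3 : g₀ • x = y := hg₀
          change g₀ • x ∈ W
          rw [h3]
          exact hyW
      · refine (finite_singleton g₀).subset ?_
        rintro g ⟨z, ⟨hz1, hz2⟩, hg⟩
        have h3 : z.2 = g₀ • z.1 := hinj hz1 hz2 (by rw [hg, hp.map_smul, hp.map_smul])
        rw [h3] at hg
        exact smul_cancel_gen hp hg.symm
  refine key.subset ?_
  rintro g ⟨y, ⟨x, hx, rfl⟩, hy⟩
  exact ⟨(x, g • x), ⟨⟨hx, hy⟩, (hp.map_smul g).symm⟩, rfl⟩

end General

section Sub

variable {E : Type v}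

/-- the projection to the quotient by `Γ` -/
def mkq (Γ : Type) [Group Γ] [MulAction Γ E] (x : E) : MulAction.orbitRel.Quotient Γ E :=
  Quotient.mk _ x

theorem mkq_eq {Γ : Type} [Group Γ] [MulAction Γ E] {x y : E} :
    mkq Γ x = mkq Γ y ↔ ∃ γ : Γ, γ • y = x := by
  unfold mkq
  rw [Quotient.eq]
  exact Iff.rfl

theorem mkq_smul {Γ : Type} [Group Γ] [MulAction Γ E] (γ : Γ) (x : E) :
    mkq Γ (γ • x) = mkq Γ x := mkq_eq.2 ⟨γ, rfl⟩

variable [TopologicalSpace E]
variable {Z : Type u} [TopologicalSpace Z] {p : E → Z} {D : Type w} [Group D] [MulAction D E]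
variable {Γ : Type} [Group Γ] [MulAction Γ E]

/-- the quotient map by a subgroup of a covering group is a covering quotient -/
theorem isQuotientCoveringMap_mkq (hp : IsQuotientCoveringMap p D) (f : Γ →* D)
    (hf : Function.Injective f) (hΓ : ∀ (γ : Γ) (x : E), γ • x = f γ • x) :
    IsQuotientCoveringMap (mkq Γ : E → MulAction.orbitRel.Quotient Γ E) Γ where
  toIsQuotientMap := isQuotientMap_quotient_mk'
  continuous_const_smul γ := by
    have := hp.toContinuousConstSMul
    simp only [hΓ]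
    exact continuous_const_smul (f γ)
  apply_eq_iff_mem_orbit := mkq_eq
  disjoint e := by
    obtain ⟨U, hU, h⟩ := hp.disjoint e
    refine ⟨U, hU, fun γ hγ => hf ?_⟩
    rw [map_one]
    refine h _ ?_
    obtain ⟨x, ⟨y, hy, hyx⟩, hx⟩ := hγ
    refine ⟨x, ⟨y, hy, ?_⟩, hx⟩
    rw [← hyx]
    exact (hΓ γ y).symm

/-- the quotient by a subgroup is Hausdorff -/
theorem t2Space_quot [T2Space Z] (hp : IsQuotientCoveringMap p D) (f : Γ →* D)
    (hf : Function.Injective f) (hΓ : ∀ (γ : Γ) (x : E), γ • x = f γ • x) :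
    T2Space (MulAction.orbitRel.Quotient Γ E) := by
  have hq := isQuotientCoveringMap_mkq hp f hf hΓ
  have hpc : Continuous p := hp.continuous
  have hcs := hp.toContinuousConstSMul
  have hcs' := hq.toContinuousConstSMul
  have hopen : ∀ U : Set E, IsOpen U → IsOpen (mkq Γ '' U) := by
    intro U hU
    rw [← hq.toIsQuotientMap.isOpen_preimage]
    have : mkq Γ ⁻¹' (mkq Γ '' U) = ⋃ γ : Γ, (γ • ·) ⁻¹' U := by
      ext x
      simp only [mem_preimage, mem_image, mem_iUnion]
      constructor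
      · rintro ⟨y, hy, hyx⟩
        obtain ⟨γ, rfl⟩ := mkq_eq.1 hyx
        exact ⟨γ, hy⟩
      · rintro ⟨γ, hγ⟩
        exact ⟨γ • x, hγ, mkq_smul γ x⟩
    rw [this]
    exact isOpen_iUnion fun γ => hU.preimage (continuous_const_smul γ)
  refine ⟨fun a b hab => ?_⟩
  obtain ⟨x, rfl⟩ := hq.surjective a
  obtain ⟨y, rfl⟩ := hq.surjective b
  by_cases h : p x = p y
  · obtain ⟨d, hd⟩ := hp.apply_eq_iff_mem_orbit.1 h
    have hd' : d • y = x := hd
    obtain ⟨U, hU, hUd⟩ := hp.disjoint y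
    refine ⟨mkq Γ '' ((d⁻¹ • ·) ⁻¹' interior U), mkq Γ '' interior U,
      hopen _ (isOpen_interior.preimage (continuous_const_smul _)), hopen _ isOpen_interior,
      ⟨x, ?_, rfl⟩, ⟨y, mem_interior_iff_mem_nhds.2 hU, rfl⟩, ?_⟩
    · change d⁻¹ • x ∈ interior U
      rw [← hd', inv_smul_smul]
      exact mem_interior_iff_mem_nhds.2 hU
    · rw [Set.disjoint_left]
      rintro _ ⟨x', hx', rfl⟩ ⟨y', hy', hxy⟩
      obtain ⟨γ, hγ⟩ := mkq_eq.1 hxy
      apply hab
      -- `f γ • x' = y'` with `d⁻¹ • x' ∈ U`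
      have h1 : f γ * d = 1 := by
        refine hUd _ ⟨y', ⟨d⁻¹ • x', interior_subset hx', ?_⟩, interior_subset hy'⟩
        change (f γ * d) • d⁻¹ • x' = y'
        rw [smul_smul, mul_assoc, mul_inv_cancel, mul_one, ← hΓ]
        exact hγ
      rw [← hd']
      have h2 : d = f γ⁻¹ := by
        rw [map_inv]
        exact (inv_eq_of_mul_eq_one_right h1).symm
      rw [h2, ← hΓ]
      exact mkq_smul _ _
  · obtain ⟨U, V, hU, hV, hxU, hyV, hUV⟩ := t2_separation h
    refine ⟨mkq Γ '' (p ⁻¹' U), mkq Γ '' (p ⁻¹' V), hopen _ (hU.preimage hpc),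
      hopen _ (hV.preimage hpc), ⟨x, hxU, rfl⟩, ⟨y, hyV, rfl⟩, ?_⟩
    rw [Set.disjoint_left]
    rintro _ ⟨x', hx', rfl⟩ ⟨y', hy', hxy⟩
    obtain ⟨γ, hγ⟩ := mkq_eq.1 hxy
    have h1 : p x' = p y' := by rw [← hγ, hΓ, hp.map_smul]
    have h2 : p x' ∈ V := by
      rw [h1]
      exact hy'
    exact Set.disjoint_left.1 hUV hx' h2

end Sub

section Cells

variable {Z : Type u} [TopologicalSpace Z] {E : Type (max u v)} [TopologicalSpace E] {p : E → Z}
variable {D : Type (max u v)} [Group D] [MulAction D E]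
variable {Γ : Type} [Group Γ] [MulAction Γ E]

/-- The quotient of the covering by a subgroup is again a cell complex of dimension at most two. -/
theorem exists_Cx_sub [T2Space Z] (c : Cx Z) (hp : IsQuotientCoveringMap p D) (f : Γ →* D)
    (hf : Function.Injective f) (hΓ : ∀ (γ : Γ) (x : E), γ • x = f γ • x) :
    Nonempty (Cx (MulAction.orbitRel.Quotient Γ E)) := by
  classical
  have hq := isQuotientCoveringMap_mkq hp f hf hΓ
  have hqc : Continuous (mkq Γ : E → MulAction.orbitRel.Quotient Γ E) := hq.continuous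
  have hpc : Continuous p := hp.continuous
  have hcs := hp.toContinuousConstSMul
  have hcs' := hq.toContinuousConstSMul
  have hcan : ∀ {g h : D} {x : E}, g • x = h • x → g = h := fun e => smul_cancel_gen hp e
  have hT2E : T2Space E := t2Space_of_covering hp.isCoveringMap
  have hopen : ∀ U : Set E, IsOpen U → IsOpen (mkq Γ '' U) := by
    intro U hU
    rw [← hq.toIsQuotientMap.isOpen_preimage]
    have : mkq Γ ⁻¹' (mkq Γ '' U) = ⋃ γ : Γ, (γ • ·) ⁻¹' U := by
      ext x
      simp only [mem_preimage, mem_image, mem_iUnion]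
      constructor
      · rintro ⟨y, hy, hyx⟩
        obtain ⟨γ, rfl⟩ := mkq_eq.1 hyx
        exact ⟨γ, hy⟩
      · rintro ⟨γ, hγ⟩
        exact ⟨γ • x, hγ, mkq_smul γ x⟩
    rw [this]
    exact isOpen_iUnion fun γ => hU.preimage (continuous_const_smul γ)
  -- the map to `Z`
  let r : MulAction.orbitRel.Quotient Γ E → Z := Quotient.lift p (by
    rintro a b ⟨γ, hγ⟩
    have hγ' : γ • b = a := hγ
    rw [← hγ', hΓ, hp.map_smul])
  have hr : ∀ x, r (mkq Γ x) = p x := fun _ => rfl
  have hrc : Continuous r := by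
    refine Continuous.quotient_lift hpc _
  -- the cosets
  let K : Type (max u v) := Quotient (QuotientGroup.rightRel f.range)
  let kmk : D → K := fun d => Quotient.mk _ d
  let o : K → D := Quotient.out
  have ho : ∀ d : D, ∃ γ : Γ, d = f γ * o (kmk d) := by
    intro d
    have h1 : (QuotientGroup.rightRel f.range) (o (kmk d)) d := Quotient.exact (Quotient.out_eq _)
    rw [QuotientGroup.rightRel_apply] at h1
    obtain ⟨γ, hγ⟩ := h1
    refine ⟨γ, ?_⟩
    rw [hγ, inv_mul_cancel_right]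
  have hko : ∀ k : K, kmk (o k) = k := fun k => Quotient.out_eq k
  have hkf : ∀ (γ : Γ) (d : D), kmk (f γ * d) = kmk d := by
    intro γ d
    refine Quotient.sound ?_
    change (QuotientGroup.rightRel f.range) _ _
    rw [QuotientGroup.rightRel_apply]
    refine ⟨γ⁻¹, ?_⟩
    rw [map_inv, mul_inv_rev, mul_inv_cancel_left]
  have F1 : ∀ (d : D) (x : E), mkq Γ (d • x) = mkq Γ (o (kmk d) • x) := by
    intro d x
    obtain ⟨γ, hγ⟩ := ho d
    refine mkq_eq.2 ⟨γ, ?_⟩
    rw [hΓ, smul_smul, ← hγ]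
  have F3 : ∀ (k k' : K) (x : E), mkq Γ (o k • x) = mkq Γ (o k' • x) → k = k' := by
    intro k k' x h
    obtain ⟨γ, hγ⟩ := mkq_eq.1 h
    rw [hΓ, smul_smul] at hγ
    have h2 := hcan hγ
    rw [← hko k, ← h2, hkf, hko]
  have F5 : ∀ (z : MulAction.orbitRel.Quotient Γ E) (x : E), r z = p x →
      ∃ k : K, z = mkq Γ (o k • x) := by
    intro z x h
    obtain ⟨y, rfl⟩ := hq.surjective z
    rw [hr] at h
    obtain ⟨d, hd⟩ := hp.apply_eq_iff_mem_orbit.1 h
    have hd' : d • x = y := hd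
    exact ⟨kmk d, by rw [← hd', F1]⟩
  have hro : ∀ (k : K) (x : E), r (mkq Γ (o k • x)) = p x := fun k x => by rw [hr, hp.map_smul]
  -- the lifts
  have hvt : ∀ v, ∃ x : E, p x = c.vert v := fun v => hp.toIsQuotientMap.surjective _
  choose vt hvt using hvt
  have het : ∀ e, ∃ g' : I → E, Continuous g' ∧ (∀ t, p (g' t) = c.edge e t) ∧
      g' 0 = vt (c.src e) := fun e =>
    exists_path_lift hp.isCoveringMap (c.edge e) (c.edge_cont e) (vt (c.src e))
      (by rw [hvt, c.edge_zero])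
  choose et het1 het2 het3 using het
  have hφ : ∀ e, ∃ g : D, g • vt (c.tgt e) = et e 1 := by
    intro e
    have : p (et e 1) = p (vt (c.tgt e)) := by rw [het2, hvt, c.edge_one]
    obtain ⟨g, hg⟩ := hp.apply_eq_iff_mem_orbit.1 this
    exact ⟨g, hg⟩
  choose φ hφ using hφ
  have hft : ∀ a : c.Fa, ∃ g' : I × I → E, Continuous g' ∧ (∀ t, p (g' t) = c.face a t) ∧
      (∀ t t', g' (0, t) = g' (0, t')) ∧ (∀ s, g' (s, 0) = g' (s, 1)) := by
    intro a
    obtain ⟨y₀, hy₀⟩ := hp.toIsQuotientMap.surjective (c.face a (1, 0))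
    obtain ⟨g', h1, h2, -, h4, h5⟩ := exists_polar_lift hp.isCoveringMap (c.face a)
      (c.face_cont a) (c.face_zero a) (c.face_wrap a) y₀ hy₀
    exact ⟨g', h1, h2, h4, h5⟩
  choose ft hft1 hft2 hft3 hft4 using hft
  -- the cells
  let vert' : c.V × K → MulAction.orbitRel.Quotient Γ E := fun a => mkq Γ (o a.2 • vt a.1)
  let edge' : c.Ed × K → I → MulAction.orbitRel.Quotient Γ E :=
    fun a s => mkq Γ (o a.2 • et a.1 s)
  let face' : c.Fa × K → I × I → MulAction.orbitRel.Quotient Γ E :=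
    fun a x => mkq Γ (o a.2 • ft a.1 x)
  have hv' : ∀ a, r (vert' a) = c.vert a.1 := fun a => by
    change r (mkq Γ (o a.2 • vt a.1)) = _
    rw [hro, hvt]
  have he' : ∀ a s, r (edge' a s) = c.edge a.1 s := fun a s => by
    change r (mkq Γ (o a.2 • et a.1 s)) = _
    rw [hro, het2]
  have hf' : ∀ a x, r (face' a x) = c.face a.1 x := fun a x => by
    change r (mkq Γ (o a.2 • ft a.1 x)) = _
    rw [hro, hft2]
  have hec : ∀ a, Continuous (edge' a) := fun a =>
    hqc.comp ((continuous_const_smul (o a.2)).comp (het1 a.1))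
  have hfc : ∀ a, Continuous (face' a) := fun a =>
    hqc.comp ((continuous_const_smul (o a.2)).comp (hft1 a.1))
  have Lv : ∀ z v, r z = c.vert v → ∃ k, z = vert' (v, k) := fun z v h =>
    F5 z (vt v) (h.trans (hvt v).symm)
  have Le : ∀ z e s, r z = c.edge e s → ∃ k, z = edge' (e, k) s := fun z e s h =>
    F5 z (et e s) (h.trans (het2 e s).symm)
  have Lf : ∀ z a x, r z = c.face a x → ∃ k, z = face' (a, k) x := fun z a x h =>
    F5 z (ft a x) (h.trans (hft2 a x).symm)
  -- sheets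
  have hsheet : ∀ z : MulAction.orbitRel.Quotient Γ E, ∃ U : Set (MulAction.orbitRel.Quotient Γ E),
      IsOpen U ∧ z ∈ U ∧ InjOn r U := by
    intro z
    obtain ⟨x, rfl⟩ := hq.surjective z
    obtain ⟨W, hW, hxW, hinj⟩ := exists_injOn_nhd_gen hp x
    refine ⟨mkq Γ '' W, hopen W hW, ⟨x, hxW, rfl⟩, ?_⟩
    rintro _ ⟨a, ha, rfl⟩ _ ⟨b, hb, rfl⟩ hab
    rw [hr, hr] at hab
    rw [hinj ha hb hab]
  -- images of open sets
  have hE : ∀ (B : Set (MulAction.orbitRel.Quotient Γ E)) (e : c.Ed),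
      c.edge e ⁻¹' (r '' B) = ⋃ k : K, edge' (e, k) ⁻¹' B := by
    intro B e
    ext s
    simp only [mem_preimage, mem_image, mem_iUnion]
    constructor
    · rintro ⟨z, hz, hzs⟩
      obtain ⟨k, hk⟩ := Le z e s hzs
      exact ⟨k, hk ▸ hz⟩
    · rintro ⟨k, hk⟩
      exact ⟨_, hk, he' _ _⟩
  have hF : ∀ (B : Set (MulAction.orbitRel.Quotient Γ E)) (a : c.Fa),
      c.face a ⁻¹' (r '' B) = ⋃ k : K, face' (a, k) ⁻¹' B := by
    intro B a
    ext s
    simp only [mem_preimage, mem_image, mem_iUnion]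
    constructor
    · rintro ⟨z, hz, hzs⟩
      obtain ⟨k, hk⟩ := Lf z a s hzs
      exact ⟨k, hk ▸ hz⟩
    · rintro ⟨k, hk⟩
      exact ⟨_, hk, hf' _ _⟩
  have himg : ∀ B : Set (MulAction.orbitRel.Quotient Γ E),
      (∀ a, IsOpen (edge' a ⁻¹' B)) → (∀ a, IsOpen (face' a ⁻¹' B)) → IsOpen (r '' B) := by
    intro B h1 h2
    rw [← isClosed_compl_iff]
    refine c.closed2 _ (fun e => ?_) (fun a => ?_)
    · rw [preimage_compl, hE, isClosed_compl_iff]
      exact isOpen_iUnion fun k => h1 _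
    · rw [preimage_compl, hF, isClosed_compl_iff]
      exact isOpen_iUnion fun k => h2 _
  refine ⟨{
    V := c.V × K
    Ed := c.Ed × K
    Fa := c.Fa × K
    vert := vert'
    edge := edge'
    face := face'
    src := fun a => (c.src a.1, a.2)
    tgt := fun a => (c.tgt a.1, kmk (o a.2 * φ a.1))
    edge_cont := hec
    face_cont := hfc
    edge_zero := fun a => by
      change mkq Γ (o a.2 • et a.1 0) = mkq Γ (o a.2 • vt (c.src a.1))
      rw [het3]
    edge_one := fun a => by
      change mkq Γ (o a.2 • et a.1 1) =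
        mkq Γ (o (kmk (o a.2 * φ a.1)) • vt (c.tgt a.1))
      rw [← F1, ← hφ, smul_smul]
    face_zero := fun a t t' => by
      change mkq Γ (o a.2 • ft a.1 (0, t)) = mkq Γ (o a.2 • ft a.1 (0, t'))
      rw [hft3 a.1 t t']
    face_wrap := fun a s => by
      change mkq Γ (o a.2 • ft a.1 (s, 0)) = mkq Γ (o a.2 • ft a.1 (s, 1))
      rw [hft4 a.1 s]
    vert_inj := ?_
    edge_vert := ?_
    edge_inj := ?_
    face_vert := ?_
    face_edge := ?_
    face_inj := ?_
    face_bdry := ?_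
    cover := ?_
    closed1 := ?_
    closed2 := ?_ }⟩
  · -- vert_inj
    rintro ⟨v, k⟩ ⟨v', k'⟩ h
    have h1 := congrArg r h
    rw [hv', hv'] at h1
    have h2 : v = v' := c.vert_inj h1
    subst h2
    have h3 : k = k' := F3 _ _ _ h
    rw [h3]
  · -- edge_vert
    intro e s v h
    have h1 := congrArg r h
    rw [he', hv'] at h1
    exact c.edge_vert _ _ _ h1
  · -- edge_inj
    rintro ⟨e, k⟩ s ⟨e', k'⟩ s' h h0 h1
    have h2 := congrArg r h
    rw [he', he'] at h2
    obtain ⟨h3, h4⟩ := c.edge_inj _ _ _ _ h2 h0 h1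
    have h3' : e = e' := h3
    subst h3'
    subst h4
    have h5 : k = k' := F3 _ _ _ h
    rw [h5]
    exact ⟨rfl, rfl⟩
  · -- face_vert
    intro a s t v h
    have h1 := congrArg r h
    rw [hf', hv'] at h1
    exact c.face_vert _ _ _ _ h1
  · -- face_edge
    intro a s t e s' h
    have h1 := congrArg r h
    rw [hf', he'] at h1
    exact c.face_edge _ _ _ _ _ h1
  · -- face_inj
    rintro ⟨a, k⟩ s t ⟨a', k'⟩ s' t' h hs
    have h1 := congrArg r h
    rw [hf', hf'] at h1
    obtain ⟨h2, h3, h4⟩ := c.face_inj _ _ _ _ _ _ h1 hs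
    have h2' : a = a' := h2
    subst h2'
    subst h3
    have h5 : ft a (s, t) = ft a (s, t') := by
      rcases h4 with rfl | rfl | ⟨rfl, rfl⟩ | ⟨rfl, rfl⟩
      · exact hft3 a t t'
      · rfl
      · exact hft4 a s
      · exact (hft4 a s).symm
    have h6 : mkq Γ (o k • ft a (s, t)) = mkq Γ (o k' • ft a (s, t)) := by
      rw [h5]
      rw [← h5]
      have h7 : mkq Γ (o k • ft a (s, t)) = mkq Γ (o k' • ft a (s, t')) := h
      rw [h7, h5]
    have h8 : k = k' := F3 _ _ _ h6
    rw [h8]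
    exact ⟨rfl, rfl, h4⟩
  · -- face_bdry
    rintro ⟨a, k⟩
    obtain ⟨S, hS⟩ := c.face_bdry a
    have hcomp : IsCompact (range fun t : I => ft a (1, t)) :=
      isCompact_range ((hft1 a).comp (by fun_prop))
    have hcompe : ∀ e, IsCompact (range (et e)) := fun e => isCompact_range (het1 e)
    have hfin : ∀ e, {d : D | ((d • ·) '' range (et e) ∩ range fun t : I => ft a (1, t)).Nonempty}.Finite :=
      fun e => finite_smul_inter_gen hp _ _ (hcompe e) hcomp
    refine ⟨S.biUnion fun e => (hfin e).toFinset.image fun d => (e, kmk (o k * d)), fun t => ?_⟩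
    rcases hS t with h | h
    · obtain ⟨v, hv⟩ := h
      left
      obtain ⟨k1, hk1⟩ := Lv (face' (a, k) (1, t)) v (by rw [hf']; exact hv.symm)
      exact ⟨(v, k1), hk1.symm⟩
    · right
      simp only [mem_iUnion, mem_range] at h
      obtain ⟨e, he, s, hs⟩ := h
      have h1 : p (ft a (1, t)) = p (et e s) := by rw [hft2, het2, hs]
      obtain ⟨d, hd⟩ := hp.apply_eq_iff_mem_orbit.1 h1
      have hd' : d • et e s = ft a (1, t) := hd
      simp only [mem_iUnion, mem_range]
      refine ⟨(e, kmk (o k * d)), ?_, s, ?_⟩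
      · rw [Finset.mem_biUnion]
        refine ⟨e, he, Finset.mem_image.2 ⟨d, ?_, rfl⟩⟩
        rw [Set.Finite.mem_toFinset]
        exact ⟨ft a (1, t), ⟨et e s, ⟨s, rfl⟩, hd'⟩, ⟨t, rfl⟩⟩
      · change mkq Γ (o (kmk (o k * d)) • et e s) = mkq Γ (o k • ft a (1, t))
        rw [← F1, ← hd', smul_smul]
  · -- cover
    intro x
    rcases c.cover (r x) with h | ⟨a, s, t, hs, hst⟩
    · left
      rcases h with ⟨v, hv⟩ | h
      · obtain ⟨k, hk⟩ := Lv x v hv.symm
        exact Or.inl ⟨(v, k), hk.symm⟩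
      · simp only [mem_iUnion, mem_range] at h
        obtain ⟨e, s, hs⟩ := h
        obtain ⟨k, hk⟩ := Le x e s hs.symm
        right
        simp only [mem_iUnion, mem_range]
        exact ⟨(e, k), s, hk.symm⟩
    · right
      obtain ⟨k, hk⟩ := Lf x a (s, t) hst.symm
      exact ⟨(a, k), s, t, hs, hk.symm⟩
  · -- closed1
    intro A hA hcl
    rw [← isOpen_compl_iff, isOpen_iff_mem_nhds]
    intro y hy
    obtain ⟨U, hU, hyU, hinj⟩ := hsheet y
    -- the image of the sheet is open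
    have hrU : IsOpen (r '' U) := himg U (fun a => hU.preimage (hec a)) (fun a => hU.preimage (hfc a))
    have hA1 : ∀ z ∈ A, r z ∈ c.Z1 := by
      intro z hz
      rcases hA hz with ⟨v, rfl⟩ | h
      · rw [hv']
        exact c.vert_mem _
      · simp only [mem_iUnion, mem_range] at h
        obtain ⟨e, s, rfl⟩ := h
        rw [he']
        exact c.edge_mem _ _
    set B : Set (MulAction.orbitRel.Quotient Γ E) := U \ A with hB
    have hcl1 : IsClosed (c.Z1 \ r '' B) := by
      refine c.closed1 _ sdiff_subset (fun e => ?_)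
      have h1 : c.edge e ⁻¹' (c.Z1 \ r '' B) = (⋃ k : K, edge' (e, k) ⁻¹' B)ᶜ := by
        rw [← hE]
        ext s
        simp only [mem_preimage, mem_sdiff, mem_compl_iff]
        constructor
        · exact fun h => h.2
        · exact fun h => ⟨c.edge_mem e s, h⟩
      rw [h1, isClosed_compl_iff]
      refine isOpen_iUnion fun k => ?_
      exact (hU.preimage (hec _)).sdiff (hcl _)
    have h2 : r '' B = r '' U \ (c.Z1 \ r '' B) := by
      ext z
      constructor
      · intro hz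
        exact ⟨image_mono sdiff_subset hz, fun h => h.2 hz⟩
      · rintro ⟨⟨y', hy', rfl⟩, hz⟩
        by_cases h : y' ∈ A
        · by_contra hcon
          exact hz ⟨hA1 _ h, hcon⟩
        · exact ⟨y', ⟨hy', h⟩, rfl⟩
    have h3 : IsOpen (r '' B) := by
      rw [h2]
      exact hrU.sdiff hcl1
    refine Filter.mem_of_superset ((hU.inter (h3.preimage hrc)).mem_nhds
      ⟨hyU, ⟨y, ⟨hyU, hy⟩, rfl⟩⟩) ?_
    rintro z ⟨hz1, ⟨z', hz', hzz⟩⟩
    have : z' = z := hinj hz'.1 hz1 hzz
    rw [← this]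
    exact hz'.2
  · -- closed2
    intro A h1 h2
    rw [← isOpen_compl_iff, isOpen_iff_mem_nhds]
    intro y hy
    obtain ⟨U, hU, hyU, hinj⟩ := hsheet y
    have h3 : IsOpen (r '' (U \ A)) := himg _
      (fun a => (hU.preimage (hec a)).sdiff (h1 a)) (fun a => (hU.preimage (hfc a)).sdiff (h2 a))
    refine Filter.mem_of_superset ((hU.inter (h3.preimage hrc)).mem_nhds
      ⟨hyU, ⟨y, ⟨hyU, hy⟩, rfl⟩⟩) ?_
    rintro z ⟨hz1, ⟨z', hz', hzz⟩⟩
    have : z' = z := hinj hz'.1 hz1 hzz
    rw [← this]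
    exact hz'.2

end Cells

/-- **Subgroups.** If `Γ` embeds in the fundamental group of a path connected CW complex of
dimension at most two with a contractible covering space, then `Γ` has an aspherical
presentation. -/
theorem main_sub {Z : Type u} [TopologicalSpace Z] [T2Space Z] [CWComplex (univ : Set Z)]
    (hdim : ∀ n > 2, IsEmpty (RelCWComplex.cell (univ : Set Z) n)) [PathConnectedSpace Z]
    {E₀ : Type v} [TopologicalSpace E₀] [ContractibleSpace E₀] {p₀ : E₀ → Z}
    (hp₀ : IsCoveringMap p₀) (z : Z) {Γ : Type} [Group Γ] (e : Γ →* FundamentalGroup Z z)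
    (he : Function.Injective e) :
    ∃ P : Pres.{max u v} Γ, P.Aspherical := by
  obtain ⟨c⟩ := exists_Cx hdim
  -- pass to a larger universe
  let E : Type (max u v) := ULift.{u} E₀
  let p : E → Z := p₀ ∘ (Homeomorph.ulift : ULift.{u} E₀ ≃ₜ E₀)
  have hp : IsCoveringMap p := by
    rw [isCoveringMap_iff_isCoveringMapOn_univ] at hp₀ ⊢
    exact hp₀.comp_homeomorph _
  have hcontr : ContractibleSpace E := Homeomorph.contractibleSpace Homeomorph.ulift
  have hqd := isQuotientCoveringMap_deck hp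
  obtain ⟨x, hx⟩ := hqd.surjective z
  let φ : Γ →* Deck p :=
    (((hqd.fundamentalGroupEquiv (x := z) ⟨x, hx⟩).trans
      (MulEquiv.inv' (Deck p)).symm).toMonoidHom).comp e
  have hφ : Function.Injective φ := by
    intro a b hab
    exact he (((hqd.fundamentalGroupEquiv (x := z) ⟨x, hx⟩).trans
      (MulEquiv.inv' (Deck p)).symm).injective hab)
  let _ : MulAction Γ E := MulAction.compHom E φ
  have hΓ : ∀ (γ : Γ) (x : E), γ • x = φ γ • x := fun _ _ => rfl
  have hq := isQuotientCoveringMap_mkq hqd φ hφ hΓ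
  have hT2 := t2Space_quot hqd φ hφ hΓ
  have : PathConnectedSpace (MulAction.orbitRel.Quotient Γ E) :=
    hq.surjective.pathConnectedSpace hq.continuous
  obtain ⟨c'⟩ := exists_Cx_sub c hqd φ hφ hΓ
  have : Nonempty (MulAction.orbitRel.Quotient Γ E) := inferInstance
  obtain ⟨v₀⟩ := c'.nonempty_V
  obtain ⟨L, pw, h0, h1, h2⟩ := exists_lifts c' hq v₀
  exact exists_pres c' L.φ c'.word v₀ pw h0 h1 (fun f => ⟨_, c'.isPath_word f⟩) h2
    (fun f => (L.exists_face c' hq f).1) (L.surj c' hq v₀) (L.ker_le c' hq v₀ pw h1 h2)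
    (fun q₀ S => independence c' hq L q₀ S)

end Vale.Agent.P173.Topo
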