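import Vale.Agent.P173.H312.Defs
import Vale.Agent.P173.H312.Sub
import Vale.Agent.P173.H312.SmallIndex
import Vale.Agent.P173.H312.CdK
import Vale.Agent.P173.H312.Coxeter

/-! # P173: counterexamples of all large cardinalities, with all their subgroups of small index -/

open CategoryTheory Cardinal

namespace Vale.Agent.P173

universe u v

theorem not_embedsInAspherical {Γ : Type} [Group Γ] (h : ∀ P : Pres.{max u v} Γ, ¬ P.Aspherical) :
    ¬ EmbedsInAspherical.{u, v} Γ 2 := by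
  rintro ⟨X, _, _, _, hdim, hX, ⟨E, _, p, hp, _⟩, x, f, hf⟩
  obtain ⟨P, hP⟩ := Topo.main_sub hdim hp x f hf
  exact h P hP

theorem embedsInAspherical_of_gdLE {Γ : Type} [Group Γ] {n : ℕ} (h : GdLE.{u, v} Γ n) :
    EmbedsInAspherical.{u, v} Γ n := by
  obtain ⟨X, i1, i2, i3, hdim, hX⟩ := h
  have := hX.pathConnected
  obtain ⟨x⟩ : Nonempty X := inferInstance
  obtain ⟨e⟩ := hX.fundamentalGroup x
  exact ⟨X, i1, i2, i3, hdim, hX.pathConnected, hX.universalCover, x, e.symm.toMonoidHom,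
    e.symm.injective⟩

theorem not_gdLE_of_injective {Γ H : Type} [Group Γ] [Group H] {n : ℕ}
    (h : ¬ EmbedsInAspherical.{u, v} Γ n) (f : Γ →* H) (hf : Function.Injective f) :
    ¬ GdLE.{u, v} H n := by
  intro hgd
  obtain ⟨X, i1, i2, i3, hdim, hX, hE, x, g, hg⟩ := embedsInAspherical_of_gdLE hgd
  exact h ⟨X, i1, i2, i3, hdim, hX, hE, x, g.comp f, hg.comp hf⟩

variable {I3 : Fin 3 → Type}

/-- the group `G` has the cardinality of the last index set -/
theorem card_GG (h0 : ℵ₀ < #(I3 0)) (h1 : #(I3 0) < #(I3 1)) (h2 : #(I3 1) < #(I3 2)) :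
    #(GG I3) = #(I3 2) := by
  apply le_antisymm
  · have hW : #(WW I3) ≤ max ℵ₀ #(JJ I3) := by
      have h3 := mk_WM_le (Set.univ : Set (JJ I3))
      rw [mk_univ] at h3
      refine (mk_le_of_injective (f := fun w : WW I3 => (⟨w, ?_⟩ : WM (Set.univ : Set (JJ I3))))
        ?_).trans h3
      · rw [WM_eq_closure]
        have h4 : {w : WW I3 | ∃ g : GenW I3, idx g ∈ (Set.univ : Set (JJ I3)) ∧ w = Racg.s g} =
            Set.range (Racg.s : GenW I3 → WW I3) := by
          ext w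
          simp only [Set.mem_univ, true_and, Set.mem_ofPred_eq, Set.mem_range]
          exact ⟨fun ⟨g, hg⟩ => ⟨g, hg.symm⟩, fun ⟨g, hg⟩ => ⟨g, hg.symm⟩⟩
        rw [h4, Racg.closure_range_s]
        trivial
      · intro a b hab
        exact congrArg (fun z : WM (Set.univ : Set (JJ I3)) => (z : WW I3)) hab
    have hJ : #(JJ I3) ≤ #(I3 2) := by
      rw [mk_sigma]
      refine (sum_le_mk_mul_iSup _).trans ?_
      refine mul_le_of_le (h0.trans (h1.trans h2)).le ?_ ?_
      · rw [mk_fin]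
        exact (natCast_lt_aleph0 (n := 3)).le.trans (h0.trans (h1.trans h2)).le
      · refine ciSup_le' fun c => ?_
        fin_cases c
        · exact (h1.trans h2).le
        · exact h2.le
        · exact le_rfl
    exact (mk_subtype_le _).trans (hW.trans (max_le (h0.trans (h1.trans h2)).le hJ))
  · let t0 : Tri := .m0 []
    let t1 : Tri := .m1 []
    refine mk_le_of_injective (f := fun j : I3 2 =>
      (⟨Racg.s ⟨.v2 t0, j⟩ * Racg.s ⟨.v2 t1, j⟩, s_mul_s_mem_GG rfl⟩ : GG I3)) ?_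
    intro j j' hjj
    by_contra hne
    have ht : (Vx.v2 t0) ≠ Vx.v2 t1 := by
      intro h
      injection h with h
      exact absurd h (by simp [t0, t1])
    have hw : (Racg.s (⟨.v2 t0, j⟩ : GenW I3) * Racg.s ⟨.v2 t1, j⟩ : WW I3) =
        Racg.s ⟨.v2 t0, j'⟩ * Racg.s ⟨.v2 t1, j'⟩ := congrArg (fun z : GG I3 => (z : WW I3)) hjj
    have h1 := congrArg (foldHom (⟨2, j⟩ : JJ I3) (.v2 t1)) hw
    have ne0 : (⟨2, j'⟩ : JJ I3) ≠ ⟨2, j⟩ := by
      intro h'
      exact hne (eq_of_heq (Sigma.mk.inj_iff.1 h').2).symm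
    rw [map_mul, map_mul,
      foldHom_s_ne (show idx (⟨.v2 t0, j⟩ : GenW I3) = ⟨2, j⟩ from rfl) ht,
      foldHom_s_eq (show idx (⟨.v2 t1, j⟩ : GenW I3) = ⟨2, j⟩ from rfl)
        (show (⟨.v2 t1, j⟩ : GenW I3).1 = Vx.v2 t1 from rfl),
      foldHom_s_one (show idx (⟨.v2 t0, j'⟩ : GenW I3) ≠ ⟨2, j⟩ from ne0),
      foldHom_s_one (show idx (⟨.v2 t1, j'⟩ : GenW I3) ≠ ⟨2, j⟩ from ne0),
      DihedralGroup.sr_mul_sr, mul_one, sub_zero, DihedralGroup.one_def] at h1
    injection h1 with h1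
    exact one_ne_zero h1

/-- The index sets: cardinalities `mu`, `mu⁺` and `kap`. -/
def idxTypes (mu kap : Cardinal.{0}) : Fin 3 → Type
  | 0 => mu.out
  | 1 => (Order.succ mu).out
  | 2 => kap.out

/-- **The main theorem.** -/
theorem main_theorem (mu kap : Cardinal.{0}) (hmu : ℵ₀ < mu)
    (hkap : Order.succ (Order.succ mu) ≤ kap) :
    ∃ (Γ : Type) (_ : Group Γ), #Γ = kap ∧
      projectiveDimension (Rep.trivial ℤ Γ ℤ) = 2 ∧ ¬ GdLE.{u, v} Γ 2 ∧
      (∃ (B : Type) (M : CoxeterMatrix B), (∀ i j, i ≠ j → M i j = 2 ∨ M i j = 0) ∧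
        ∃ f : Γ →* M.Group, Function.Injective f) ∧
      ∀ Δ : Subgroup Γ, #(Γ ⧸ Δ) < mu →
        (∀ (k : Type) [CommRing k] [Nontrivial k],
          projectiveDimension (Rep.trivial k Δ k) = 2) ∧
        ¬ EmbedsInAspherical.{u, v} Δ 2 ∧
        ∀ (H : Type) [Group H] (f : Δ →* H), Function.Injective f → ¬ GdLE.{u, v} H 2 := by
  have c0 : #(idxTypes mu kap 0) = mu := mk_out _
  have c1 : #(idxTypes mu kap 1) = Order.succ mu := mk_out _
  have c2 : #(idxTypes mu kap 2) = kap := mk_out _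
  have h0 : ℵ₀ < #(idxTypes mu kap 0) := by rwa [c0]
  have h1 : #(idxTypes mu kap 0) < #(idxTypes mu kap 1) := by
    rw [c0, c1]
    exact Order.lt_succ _
  have h2 : #(idxTypes mu kap 1) < #(idxTypes mu kap 2) := by
    rw [c1, c2]
    exact (Order.lt_succ _).trans_le hkap
  have hsub : ∀ Δ : Subgroup (GG (idxTypes mu kap)), #(GG (idxTypes mu kap) ⧸ Δ) < mu →
      (∀ (k : Type) [CommRing k] [Nontrivial k],
        projectiveDimension (Rep.trivial k Δ k) = 2) ∧ ¬ EmbedsInAspherical.{u, v} Δ 2 ∧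
        ∀ (H : Type) [Group H] (f : Δ →* H), Function.Injective f → ¬ GdLE.{u, v} H 2 := by
    intro Δ hΔ
    have hi0 : #(GG (idxTypes mu kap) ⧸ Δ) < #(idxTypes mu kap 0) := by rwa [c0]
    have hemb : ¬ EmbedsInAspherical.{u, v} Δ 2 :=
      not_embedsInAspherical fun P => Sub.not_aspherical Δ h0 h1 h2 hi0 P
    exact ⟨fun k _ _ => OverK.cd_eq_two_sub k Δ hi0 (hi0.trans (h1.trans h2)), hemb,
      fun H _ f hf => not_gdLE_of_injective hemb f hf⟩
  refine ⟨GG (idxTypes mu kap), inferInstance, (card_GG h0 h1 h2).trans c2, ?_, ?_, ?_, hsub⟩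
  · exact OverK.cd_eq_two ℤ (mk_ne_zero_iff.1 ((aleph0_pos.trans h0).ne'))
      (mk_ne_zero_iff.1 ((aleph0_pos.trans (h0.trans (h1.trans h2))).ne'))
  · intro hgd
    -- transport to the subgroup `⊤` of index one
    have htop : #(GG (idxTypes mu kap) ⧸ (⊤ : Subgroup (GG (idxTypes mu kap)))) < mu := by
      have : Subsingleton (GG (idxTypes mu kap) ⧸ (⊤ : Subgroup (GG (idxTypes mu kap)))) :=
        QuotientGroup.subsingleton_quotient_top
      exact (le_one_iff_subsingleton.2 this).trans_lt (one_lt_aleph0.trans hmu)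
    exact (hsub ⊤ htop).2.2 _ (Subgroup.subtype ⊤) (Subgroup.subtype_injective _) hgd
  · obtain ⟨f, hf⟩ := exists_coxeter (idxTypes mu kap)
    exact ⟨_, coxMat (idxTypes mu kap), fun i j hij => coxMat_ne _ hij,
      f.comp (Subgroup.subtype _), hf.comp (Subgroup.subtype_injective _)⟩

end Vale.Agent.P173
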